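import Vale.Agent.P305I.Next
import Vale.Agent.P305GM.Ov

/-!
# Primal interior point method, part 7: the parameters; the box from the engine
-/

namespace Vale.Agent.P305I

open Vale.Agent.P305E Vale.Agent.P305C Vale.Agent.P305LC Vale.Agent.P305M Finset
open Vale.Agent.P305GM

/-- The constants of the program. -/
def mkK (b ρ z γ s : ℕ) : Kp :=
  ⟨b, ⟨128 * (γ * γ * γ) * (128 * (z * z) * s), s, 128 * (z * z) * s, 64 * γ⟩, ρ * (16 * z * s),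
    16 * z * s, 15 * (128 * (γ * γ * γ) * (128 * (z * z) * s) / (ρ * (16 * z * s))), γ⟩

/-- The constants of the analysis. -/
def mkC (ρ z γ s k : ℕ) : Cn :=
  ⟨γ, 2 * γ * (128 * (z * z) * s), 128 * (z * z) * s, 256 * (γ * γ * γ),
    11 * (128 * (γ * γ * γ) * (128 * (z * z) * s) / (ρ * (16 * z * s))), 2 ^ 38 * z ^ 4 * γ ^ 13,
    γ, 2048 * γ ^ 5, k⟩

theorem kok {B b b0 ρ z γ s k : ℕ} (hz : z = 2 ^ b0) (h1 : 1 ≤ ρ) (h2 : ρ ≤ z) (hs : 1 ≤ s)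
    (hk : 128 * (z * z) * s ≤ 2 ^ k) (hc : 62 + 2 * k ≤ γ) (hb : 2 ^ 40 * z ^ 4 * γ ^ 14 ≤ 2 ^ b)
    (hB : 2 * 2 ^ b ≤ B) (hU : 128 * (z * z) * s ≤ B) :
    KOK B b0 ρ (mkK b ρ z γ s) (mkC ρ z γ s k) := by
  have z1 : 1 ≤ z := h1.trans h2
  have g1 : 1 ≤ γ := by omega
  have a1 : s ≤ z * s := Nat.le_mul_of_pos_left _ z1
  have a2 : z * s ≤ ρ * (z * s) := Nat.le_mul_of_pos_left _ h1
  have a3 : ρ * (z * s) ≤ z * (z * s) := Nat.mul_le_mul_right _ h2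
  have a4 : γ ≤ γ * γ * γ := by nlinarith [Nat.mul_pos g1 g1]
  have a5 : γ * (z * (z * s)) ≤ γ * γ * γ * (z * (z * s)) := Nat.mul_le_mul_right _ a4
  have a6 : z * (z * s) ≤ γ * (z * (z * s)) := Nat.le_mul_of_pos_left _ g1
  obtain ⟨L, hL⟩ : ∃ L, L = 128 * (γ * γ * γ) * (128 * (z * z) * s) := ⟨_, rfl⟩
  obtain ⟨r, hr⟩ : ∃ r, r = ρ * (16 * z * s) := ⟨_, rfl⟩
  have eL : L = 16384 * (γ * γ * γ * (z * (z * s))) := by rw [hL]; ring
  have er : r = 16 * (ρ * (z * s)) := by rw [hr]; ring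
  have eU : 128 * (z * z) * s = 128 * (z * (z * s)) := by ring
  have d1 : r * (L / r) ≤ L := Nat.mul_div_le _ _
  have d2 : L < r * (L / r) + r := Nat.lt_mul_div_succ L (by omega)
  have d3 : 11 * s * (L / r) ≤ r * (L / r) := Nat.mul_le_mul_right _ (by omega)
  have d4 : L / r ≤ 1024 * (z * (γ * γ * γ)) := Nat.div_le_of_le_mul (by
    have := Nat.mul_le_mul_left (16384 * (z * (γ * γ * γ))) a2
    rw [eL, er]
    linarith)
  have w1 : z * (γ * γ * γ) ≤ z ^ 4 * γ ^ 13 := Nat.mul_le_mul (Nat.le_self_pow (by omega) _)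
    (by rw [← pow_three']; exact Nat.pow_le_pow_right g1 (by omega))
  have w2 : z * γ ^ 5 ≤ z ^ 4 * γ ^ 14 := Nat.mul_le_mul (Nat.le_self_pow (by omega) _)
    (Nat.pow_le_pow_right g1 (by omega))
  have w3 : 1 ≤ z ^ 4 * γ ^ 13 := Nat.mul_pos (by positivity) (by positivity)
  have w4 : 1 ≤ γ ^ 5 := Nat.one_le_pow _ _ g1
  have w5 : γ ^ 4 ≤ γ ^ 5 := Nat.pow_le_pow_right g1 (by omega)
  have w6 : 1 ≤ z * γ ^ 5 := Nat.mul_pos z1 w4
  refine ⟨⟨?_, ?_, ?_, ?_⟩, h1, rfl, ?_, g1, rfl, rfl, ?_, ?_, ?_, ?_, ?_, ?_, ?_, hk, hc, ?_, ?_,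
    ?_, ?_, ?_, ?_, ?_, ?_, ?_, ?_, hB, hU⟩ <;> simp only [mkK, mkC, ← hL, ← hr, ← hz]
  · omega
  · omega
  · omega
  · rw [eU]; linarith
  · positivity
  · omega
  · linarith
  · rw [hL]; linarith
  · rw [hL]; linarith
  · linarith
  · rw [eU]; linarith
  · omega
  · intro h
    rw [show L / r = 0 by omega] at d2
    omega
  · linarith
  · rcases Nat.eq_zero_or_pos (L / r) with h | h
    · rw [h] at d2
      omega
    · omega
  · have : r * (11 * (L / r)) = 11 * (r * (L / r)) := by ring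
    omega
  · linarith
  · have : r * (11 * (L / r)) = 11 * (r * (L / r)) := by ring
    have : r * (15 * (L / r)) = 15 * (r * (L / r)) := by ring
    omega
  · linarith
  · rw [hL]
    exact le_of_eq (by ring)
  · refine le_trans (Nat.mul_le_mul_left γ (show _ ≤ 2 ^ 40 * (z ^ 4 * γ ^ 13) by
      rw [mul_assoc]; omega)) (le_trans (le_of_eq (by ring)) hb)
  · have : z * (2048 * γ ^ 5) = 2048 * (z * γ ^ 5) := by ring
    rw [mul_assoc] at hb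
    omega

variable {σ : Type}

/-- The initial state. -/
def binit (X : Eng σ) (c c1 q b0 ρ : ℕ) : M (Bs σ) :=
  num (8 * b0 + q) >>= fun b => num (c1 * P305BX.sq b) >>= fun j => pow2 j >>= fun γ =>
  num (c * (b + 1)) >>= fun a => pow2 a >>= fun s => pow2 b0 >>= fun z =>
  num (16 * z * s) >>= fun D => num (128 * (z * z) * s) >>= fun U =>
  num (128 * (γ * γ * γ) * U) >>= fun L => num (ρ * D) >>= fun r => num (15 * (L / r)) >>= fun l =>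
  num (64 * γ) >>= fun E => num (2 * γ * U) >>= fun η => X.init b 1 η >>= fun st =>
  pure (⟨b, ⟨L, s, U, E⟩, r, D, l, γ⟩, 0, Arr.const ⟨0, 0, 0, 0, 0⟩, Arr.const 0, st)

variable [Rep σ] {X : Eng σ} {c : ℕ} {g : ℕ → ℕ} {I : ℕ → ℕ → ℕ → ℕ → Gh → σ → ℕ → ℕ → Prop}

theorem impl_binit (h : Impl fun p : ℕ × ℕ × ℕ => X.init p.1 p.2.1 p.2.2) (c c1 q : ℕ) :
    Impl fun p : ℕ × ℕ => binit X c c1 q p.1 p.2 := by
  have h' : ∀ {α : Type} [Rep α] {a b d : α → ℕ}, Pure a → Pure b → Pure d →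
      Impl fun x => X.init (a x) (b x) (d x) := fun {α} _ {a b d} h1 h2 h3 =>
    Impl.comp (g := fun x => (a x, b x, d x)) h (by fun_prop)
  unfold binit
  iterate 13 refine Impl.bind (by fun_prop) ?_
  exact Impl.bind (h' (by fun_prop) (by fun_prop) (by fun_prop)) (by fun_prop)

/-- The invariant of the box. -/
def BI (I : ℕ → ℕ → ℕ → ℕ → Gh → σ → ℕ → ℕ → Prop) (g g' : ℕ → ℕ) (B b0 ρ : ℕ) (G : OG)
    (S : Bs σ) (φ : ℕ) : Prop :=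
  ∃ C k, KOK B b0 ρ S.1 C ∧ g S.1.b ≤ C.γ ∧ C.cost ≤ g' b0 ∧
    Inv I B S.1 C G S.2.1 S.2.2 (G.size * C.C0) φ k

theorem binit_vt (hX : EngOK X c g I) {g' : ℕ → ℕ} {c1 q B b0 ρ j : ℕ} (hq : 80 ≤ q)
    (hj : j = c1 * P305BX.sq (8 * b0 + q))
    (h1 : g (8 * b0 + q) + (2 * c + 4) * (8 * b0 + q) + (2 * c + 76) ≤ 2 ^ j)
    (h2 : 28 * j ≤ 8 * b0 + q) (h3 : 4096 * (2 ^ j) ^ 6 ≤ g' b0) (h4 : 1 ≤ ρ) (h5 : ρ ≤ 2 ^ b0)
    (hB : 2 ^ ((2 * c + 2) * (q + 9) * (b0 + 1)) ≤ B) :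
    Vt b0 B (binit X c c1 q b0 ρ) fun s t => ∃ φ, BI I g g' B b0 ρ OG.empty s φ ∧
      t + φ ≤ g' b0 := by
  obtain ⟨b, hb⟩ : ∃ b, b = 8 * b0 + q := ⟨_, rfl⟩
  obtain ⟨a, ha⟩ : ∃ a, a = c * (b + 1) := ⟨_, rfl⟩
  have le : ∀ {x n : ℕ}, x ≤ 2 ^ n → n ≤ 2 * a + 2 * b + 2 → x ≤ B := fun hx hn =>
    hx.trans ((Nat.pow_le_pow_right (by omega) (hn.trans (by
      have : b + 1 ≤ (q + 9) * (b0 + 1) := by nlinarith [Nat.zero_le (q * b0)]
      have := Nat.mul_le_mul_left (2 * c + 2) this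
      rw [ha]
      linarith))).trans hB)
  rw [← hb] at h1 h2 hj
  have e1 : 16 * 2 ^ b0 * 2 ^ a = 2 ^ (a + b0 + 4) := by ring
  have e2 : 128 * (2 ^ b0 * 2 ^ b0) * 2 ^ a = 2 ^ (a + 2 * b0 + 7) := by ring
  have e3 : 128 * (2 ^ j * 2 ^ j * 2 ^ j) * (128 * (2 ^ b0 * 2 ^ b0) * 2 ^ a) =
    2 ^ (a + 2 * b0 + 3 * j + 14) := by ring
  have e4 : 2 * 2 ^ j * (128 * (2 ^ b0 * 2 ^ b0) * 2 ^ a) = 2 ^ (a + 2 * b0 + j + 8) := by ring
  have hK := kok (B := B) (b := b) (b0 := b0) (γ := 2 ^ j) (s := 2 ^ a) (k := a + 2 * b0 + 7) rfl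
    h4 h5 Nat.one_le_two_pow e2.le (by rw [ha]; nlinarith)
    (le_trans (le_of_eq (by ring)) (Nat.pow_le_pow_right (by omega)
      (show 40 + 4 * b0 + 14 * j ≤ b by omega)))
    (le (n := b + 1) (by rw [pow_succ']) (by omega)) (le e2.le (by omega))
  have g1 : 1 ≤ 2 ^ j := Nat.one_le_two_pow
  have g2 : 1 ≤ 2 ^ a := Nat.one_le_two_pow
  have hc : (mkC ρ (2 ^ b0) (2 ^ j) (2 ^ a) (a + 2 * b0 + 7)).cost ≤ 4096 * (2 ^ j) ^ 6 := by
    simp only [Cn.cost, Cn.t1, mkC]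
    generalize 2 ^ j = γ at g1
    have := Nat.pow_le_pow_right g1 (show 0 ≤ 6 by omega)
    have := Nat.pow_le_pow_right g1 (show 1 ≤ 6 by omega)
    have := Nat.pow_le_pow_right g1 (show 4 ≤ 6 by omega)
    have := Nat.pow_le_pow_right g1 (show 5 ≤ 6 by omega)
    linarith
  have k1 := hK.Wb
  have k2 := hK.B2
  have k3 := hK.U2
  have k4 := hK.B3
  have k5 := (Nat.le_mul_of_pos_left _ hK.γ_pos).trans hK.Wb
  simp only [mkK, mkC] at k1 k2 k3 k4 k5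
  unfold binit
  rw [← hb]
  refine Vt.num_bind (le Nat.lt_two_pow_self.le (by omega)) ?_
  rw [← hj]
  refine Vt.num_bind (le Nat.lt_two_pow_self.le (by omega)) (Vt.need (le le_rfl (by omega))
    (Vt.pure_bind ?_))
  rw [← ha]
  refine Vt.num_bind (le Nat.lt_two_pow_self.le (by omega)) (Vt.need (le le_rfl (by omega))
    (Vt.need (le le_rfl (by omega)) (Vt.num_bind (le e1.le (by omega)) (Vt.num_bind k4
    (Vt.num_bind (le e3.le (by omega)) (Vt.num_bind (by omega) (Vt.num_bind (by omega)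
    (Vt.num_bind (le (n := j + 6) (le_of_eq (by ring)) (by omega))
    (Vt.num_bind (le e4.le (by omega)) ?_)))))))))
  refine ((hX.init B b 1 _ Nat.one_le_two_pow ?_ ?_).anti (by omega)).bind ?_
  · rw [e4, ← ha]
    exact Nat.pow_le_pow_right (by omega) (by omega)
  · rw [e4, ← ha, ← pow_add]
    exact le le_rfl (by omega)
  rintro st t ⟨φ, i1, i2⟩
  have := Nat.le_self_pow (show 6 ≠ 0 by omega) (2 ^ j)
  exact Vt.pure ⟨φ, ⟨_, 0, hK, by simp only [mkC]; omega, hc.trans h3,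
    Gh.empty, fun _ => 0, 0, φ, 0, i1, ⟨rfl, by simp, by simp⟩,
    ⟨Rel.empty, Circ.zero, by simp, by simp, by simp [Psi]⟩, by simp [Gh.empty], by simp, by simp⟩,
    by omega⟩

theorem KOK.b_le {B b0 ρ : ℕ} {K : Kp} {C : Cn} (h : KOK B b0 ρ K C) : b0 ≤ K.b :=
  (Nat.pow_le_pow_iff_right (show 1 < 2 by omega)).1 (by have := h.two_le; omega)

/-- **The box from the engine.** -/
theorem box_of_eng (h : ENG) : BOX True := by
  obtain ⟨σ, _, X, c, g, I, hX⟩ := h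
  obtain ⟨c1, q, G, hq, hG, hp⟩ := ((Ov.mk hX.sub hX.mono).add
    (Ov.affine (2 * c + 4) (2 * c + 76))).param 28 8 80
  obtain ⟨g', hO, hg⟩ : ∃ g', Ov g' ∧ ∀ b, 4096 * G b ^ 6 ≤ g' b :=
    ⟨_, (Ov.const 4096).mul (hG.pow 6), fun _ => le_rfl⟩
  refine ⟨Bs σ, inferInstance, ⟨binit X c c1 q, bnode X, barc X, bnext X⟩, (2 * c + 2) * (q + 9),
    g', BI I g g', impl_binit hX.iinit c c1 q, impl_bnode hX.iins,
    impl_barc hX.iins, impl_bnext hX.iins hX.istep, hO.sub, hO.mono, fun B b ρ h1 h2 h3 => ?_,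
    ?_, ?_, ?_⟩
  · obtain ⟨k1, k2, k3⟩ := hp b
    exact binit_vt hX hq rfl (by omega) k2
      ((Nat.mul_le_mul_left _ (Nat.pow_le_pow_left k3 6)).trans (hg b)) h1 h2 h3
  · rintro B b ρ G ⟨K, m, p⟩ φ v a sl ⟨C, k, i1, i2, i3, i4⟩ h1 - h2 h3
    refine ((bnode_vt hX i1 i2 i4 h1 (h2 trivial) h3).anti i1.b_le).mono ?_
    rintro _ t ⟨m', q', φ', k', rfl, l1, l2⟩
    exact ⟨φ', ⟨C, k', i1, i2, i3, l1⟩, by omega⟩
  · rintro B b ρ G ⟨K, m, p⟩ φ e ⟨C, k, i1, i2, i3, i4⟩ h1 h2 h3 - h4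
    refine ((barc_vt hX i1 i2 i4 h1 h2 h3 h4).anti i1.b_le).mono ?_
    rintro _ t ⟨m', q', φ', k', rfl, l1, l2⟩
    exact ⟨φ', ⟨C, k', i1, i2, i3, l1⟩, by omega⟩
  · rintro B b ρ G ⟨K, m, p⟩ φ ⟨C, k, i1, i2, i3, i4⟩ h1
    refine ((bnext_vt hX i1 i2 i4 h1).anti i1.b_le).mono ?_
    have h5 : 5 ≤ C.cost := by unfold Cn.cost; omega
    rintro ⟨_ | v, S⟩ t hr
    · obtain ⟨⟨Y, l1, l2⟩, l3⟩ := hr
      exact ⟨⟨Y, l1, l2.trans (Nat.mul_le_mul_right _ (Nat.mul_le_mul_right _ (h5.trans i3)))⟩,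
        by omega⟩
    · obtain ⟨l1, l2, l3, m', q', φ', k', rfl, l4, l5⟩ := hr
      exact ⟨l1, l2, fun Y => (l3 Y).trans (Nat.mul_le_mul_right _ (by omega)), φ',
        ⟨C, k', i1, i2, i3, l4⟩, by omega⟩

end Vale.Agent.P305I
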