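import Vale.Agent.P305I.Step

/-!
# Primal interior point method, part 2: conservation gives fuel, centrality gives a small cut
-/

namespace Vale.Agent.P305I

open Vale.Agent.P305E Vale.Agent.P305F Finset

variable {P : Ip} {m : ℕ} {A : ℕ → Ar} {x y : ℕ → ℤ}

open Classical in
theorem Circ.cut (hx : Circ m A x) (X : ℕ → Prop) :
    ∑ e ∈ range m, (if ¬ X (A e).tl ∧ X (A e).hd then x e else 0) =
      ∑ e ∈ range m, if X (A e).tl ∧ ¬ X (A e).hd then x e else 0 := by
  have := hx fun v => if X v then 1 else 0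
  rw [← sub_eq_zero, ← sum_sub_distrib]
  refine Eq.trans (sum_congr rfl fun e _ => ?_) this
  by_cases h1 : X (A e).tl <;> by_cases h2 : X (A e).hd <;> simp [h1, h2]

/-- **Fuel.** -/
theorem fuel (hx : Circ m A x) (hin : ∀ e < m, (A e).In P (x e)) {δ h : ℕ}
    (hlo : ∀ e < m, -(δ : ℤ) ≤ (A e).lo) {X : ℕ → Prop} (T : Finset ℕ)
    (hT : ∀ e ∈ T, e < m ∧ X (A e).tl ∧ ¬ X (A e).hd ∧ (h : ℤ) ≤ (A e).lo) :
    (h : ℤ) * T.card ≤ capIn m A X + δ * m := by
  classical
  have h0 := hx.cut X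
  have h1 : ∑ e ∈ range m, (if ¬ X (A e).tl ∧ X (A e).hd then x e else 0) ≤ capIn m A X :=
    sum_le_sum fun e he => by
      by_cases k : ¬ X (A e).tl ∧ X (A e).hd
      · rw [if_pos k, if_pos k]
        exact (hin e (mem_range.1 he)).2.1.le
      · rw [if_neg k, if_neg k]
  have h2 : ∑ e ∈ range m, ((if e ∈ T then (h : ℤ) else 0) - δ) ≤
      ∑ e ∈ range m, if X (A e).tl ∧ ¬ X (A e).hd then x e else 0 :=
    sum_le_sum fun e he => by
      have a1 := (hin e (mem_range.1 he)).1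
      have a2 := hlo e (mem_range.1 he)
      by_cases k : e ∈ T
      · have a4 := hT e k
        rw [if_pos k, if_pos ⟨a4.2.1, a4.2.2.1⟩]
        omega
      · rw [if_neg k]
        split_ifs <;> omega
  rw [sum_sub_distrib, sum_ite_mem, inter_eq_right.2 fun e he => mem_range.2 (hT e he).1,
    sum_const, sum_const, card_range, nsmul_eq_mul, nsmul_eq_mul] at h2
  linarith

open Classical in
theorem card_between (T : ℕ) {a b : ℝ} (hab : a ≤ b) :
    (((range T).filter fun j : ℕ => a ≤ (j : ℝ) ∧ (j : ℝ) < b).card : ℝ) ≤ b - a + 1 := by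
  by_cases hS : ((range T).filter fun j : ℕ => a ≤ (j : ℝ) ∧ (j : ℝ) < b).Nonempty
  · have h1 := (mem_filter.1 (min'_mem _ hS)).2.1
    have h2 := (mem_filter.1 (max'_mem _ hS)).2.2
    have h3 := min'_le_max' _ hS
    have h4 := card_le_card (s := (range T).filter fun j : ℕ => a ≤ (j : ℝ) ∧ (j : ℝ) < b)
      (t := Icc (min' _ hS) (max' _ hS)) fun j hj => mem_Icc.2 ⟨min'_le _ _ hj, le_max' _ _ hj⟩
    rw [Nat.card_Icc] at h4
    generalize min' _ hS = p at *
    generalize max' _ hS = q at *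
    have h5 := (Nat.cast_le (α := ℝ)).2 h4
    rw [Nat.cast_sub (by omega)] at h5
    push_cast at h5
    linarith
  · rw [not_nonempty_iff_eq_empty.1 hS]
    simp only [card_empty, Nat.cast_zero]
    linarith

theorem cnt_bound (h : P.OK) {z w : ℤ} {c T : ℕ} (hz : 0 < z) (hU : z ≤ P.U) (hw : w ≤ 2 * z)
    (hT : c ≤ T) (hc : (c : ℝ) ≤ 2 * gi P z + 1) (hs : P.s * T ≤ P.Lam) :
    (w : ℝ) * c ≤ 10 * P.Lam := by
  have k0 : (0 : ℝ) < z := by exact_mod_cast hz
  have k1 : (w : ℝ) ≤ 2 * z := by exact_mod_cast hw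
  have k2 : (0 : ℝ) ≤ c := Nat.cast_nonneg _
  have k3 : (z : ℝ) ≤ P.U := by exact_mod_cast hU
  have k4 : 20 * (P.U : ℝ) ≤ P.Lam := by exact_mod_cast h.U_le
  have k5 := mul_le_mul_of_nonneg_right k1 k2
  by_cases hzs : (P.s : ℤ) ≤ z
  · have := gi_mul_le hz hzs
    have := mul_le_mul_of_nonneg_left hc k0.le
    nlinarith
  · have a1 : (z : ℝ) ≤ P.s := by exact_mod_cast (not_le.1 hzs).le
    have a2 : (c : ℝ) ≤ T := by exact_mod_cast hT
    have a3 : (P.s : ℝ) * T ≤ P.Lam := by exact_mod_cast hs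
    have := mul_le_mul a1 a2 k2 (Nat.cast_nonneg _)
    nlinarith

theorem Ar.Near.close (h : P.OK) {a : Ar} {x y : ℤ} (hn : a.Near P x y) :
    a.up - x ≤ 2 * (a.up - y) ∧ x - a.lo ≤ 2 * (y - a.lo) := by
  have h1 := hn.real
  obtain ⟨⟨k1, k2, -⟩, -⟩ := hn
  have hE : (10 : ℝ) ≤ P.E := by exact_mod_cast h.E_ge
  have p := abs_nonneg ((x : ℝ) - y)
  have key : ∀ z : ℤ, 0 < z → gi P z ≤ a.len P y → |(x : ℝ) - y| ≤ z := by
    intro z hz hl
    have a1 := lam_le_gi (P := P) hz
    have a2 : (gi P z : ℝ) ≤ a.len P y := by exact_mod_cast hl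
    have a3 : (2 : ℝ) ≤ gi P z := by exact_mod_cast two_le_gi (P := P) z
    have a4 := mul_le_mul_of_nonneg_right a2 p
    have a5 : (gi P z : ℝ) * |(x : ℝ) - y| ≤ gi P z * z := by
      nlinarith [mul_nonneg (show (0 : ℝ) ≤ a.len P y by positivity) p]
    exact le_of_mul_le_mul_left a5 (by linarith)
  have b1 := abs_le.1 (key (a.up - y) (by omega) (Nat.le_add_left _ _))
  have b2 := abs_le.1 (key (y - a.lo) (by omega) (Nat.le_add_right _ _))
  push_cast at b1 b2
  constructor
  · have : (a.up : ℝ) - x ≤ 2 * (a.up - y) := by linarith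
    exact_mod_cast this
  · have : (x : ℝ) - a.lo ≤ 2 * (y - a.lo) := by linarith
    exact_mod_cast this

theorem slot_price (h : P.OK) {z : ℤ} {r T l : ℕ} (hr : P.s ≤ r) (hz : 2 * (r : ℤ) ≤ z)
    (hU : z ≤ P.U) (hT : r * T + 3 * P.Lam ≤ r * l) : (T : ℝ) + 2 * gi P z ≤ l := by
  have h0 := h.s_pos
  have k := gi_mul_le (P := P) (y := z) (by omega) (by omega)
  have k1 : 2 * (r : ℝ) ≤ z := by exact_mod_cast hz
  have k2 : (z : ℝ) ≤ P.U := by exact_mod_cast hU
  have k3 : 20 * (P.U : ℝ) ≤ P.Lam := by exact_mod_cast h.U_le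
  have k4 : (r : ℝ) * T + 3 * P.Lam ≤ r * l := by exact_mod_cast hT
  have k5 : (0 : ℝ) < r := by exact_mod_cast (show 0 < r by omega)
  have k6 := mul_le_mul_of_nonneg_left k1 (Nat.cast_nonneg (α := ℝ) (gi P z))
  have : (r : ℝ) * (T + 2 * gi P z) ≤ r * l := by nlinarith
  exact le_of_mul_le_mul_left this k5

open Classical in
/-- **Stall.** -/
theorem stall (h : P.OK) (hx : Circ m A x) (hin : ∀ e < m, (A e).In P (x e))
    (hy : ∀ e < m, (A e).Near P (x e) (y e)) (hc : Central P m A y) {o r T : ℕ} (hT : 0 < T)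
    (hr : P.s ≤ r) (h1 : 10 * P.Lam ≤ r * T) (h2 : P.s * T ≤ P.Lam) (sl un : ℕ → Prop)
    {Z : ℕ} (hsl : ∀ e < m, sl e → (A e).hd = o ∧ (A e).up ≤ Z) (hns : ∀ e < m, ¬ sl e → (A e).lam = 0 ∧ (A e).lo ≤ 0)
    (hun : ∀ e < m, un e → sl e ∧ y e + 2 * r ≤ (A e).up ∧ r * T + 3 * P.Lam ≤ r * (A e).lam) :
    ∃ X : ℕ → Prop, ¬ X o ∧ (∀ e < m, un e → X (A e).tl) ∧
      capIn m A X ≤ r * m + Z * m := by
  obtain ⟨π, hπ⟩ := hc
  let X : ℕ → ℕ → Prop := fun j v => (j : ℝ) < π v - π o
  let F : ℕ → ℕ → ℝ := fun j e =>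
    (if ¬ X j (A e).tl ∧ X j (A e).hd then ((A e).up : ℝ) - x e else 0) +
      if X j (A e).tl ∧ ¬ X j (A e).hd ∧ ¬ sl e then (x e : ℝ) - (A e).lo else 0
  have key : ∀ e ∈ range m, ∑ j ∈ range T, F j e ≤ 10 * P.Lam := by
    intro e he
    have he := mem_range.1 he
    obtain ⟨a1, a2⟩ := abs_le.1 (hπ e he)
    obtain ⟨c1, c2⟩ := (hy e he).close h
    obtain ⟨⟨d1, d2, d3⟩, -⟩ := hy e he
    simp only [Ar.g, Ar.len] at a1 a2
    push_cast at a1 a2
    have hl : (0 : ℝ) ≤ (A e).lam := Nat.cast_nonneg _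
    simp only [F, sum_add_distrib, ← sum_filter, sum_const, nsmul_eq_mul]
    rcases le_total (π (A e).tl) (π (A e).hd) with k | k
    · rw [filter_false_of_mem (p := fun j => X j (A e).tl ∧ ¬ X j (A e).hd ∧ ¬ sl e)
        fun j _ hj => hj.2.1 (by have := hj.1; simp only [X] at this ⊢; linarith)]
      have b := card_between T (a := π (A e).tl - π o) (b := π (A e).hd - π o) (by linarith)
      have := cnt_bound h (z := (A e).up - y e) (w := (A e).up - x e)
        (c := ((range T).filter fun j => ¬ X j (A e).tl ∧ X j (A e).hd).card) (by omega) (by omega)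
        c1 ((card_filter_le _ _).trans (card_range _).le) (by
          simp only [X, not_lt]
          linarith) h2
      push_cast at this
      simp only [card_empty, Nat.cast_zero]
      linarith
    · rw [filter_false_of_mem (p := fun j => ¬ X j (A e).tl ∧ X j (A e).hd)
        fun j _ hj => hj.1 (by have := hj.2; simp only [X] at this ⊢; linarith)]
      by_cases ks : sl e
      · rw [filter_false_of_mem fun j _ hj => hj.2.2 ks]
        simp
      have b := card_between T (a := π (A e).hd - π o) (b := π (A e).tl - π o) (by linarith)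
      have b' : ((range T).filter fun j => X j (A e).tl ∧ ¬ X j (A e).hd ∧ ¬ sl e).card ≤ _ :=
        card_le_card (t := (range T).filter fun j : ℕ =>
          π (A e).hd - π o ≤ (j : ℝ) ∧ (j : ℝ) < π (A e).tl - π o) fun j hj =>
          mem_filter.2 ⟨(mem_filter.1 hj).1, not_lt.1 (mem_filter.1 hj).2.2.1,
            (mem_filter.1 hj).2.1⟩
      have b'' := (Nat.cast_le (α := ℝ)).2 b'
      rw [(hns e he ks).1, Nat.cast_zero] at a2
      have := cnt_bound h (z := y e - (A e).lo) (w := x e - (A e).lo)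
        (c := ((range T).filter fun j => X j (A e).tl ∧ ¬ X j (A e).hd ∧ ¬ sl e).card) (by omega)
        (by omega) c2 ((card_filter_le _ _).trans (card_range _).le) (by linarith) h2
      push_cast at this
      simp only [card_empty, Nat.cast_zero]
      linarith
  have tot : ∑ j ∈ range T, ∑ e ∈ range m, F j e ≤ ∑ _j ∈ range T, (r : ℝ) * m := by
    rw [sum_comm]
    refine (sum_le_sum key).trans ?_
    have : 10 * (P.Lam : ℝ) ≤ r * T := by exact_mod_cast h1
    simp only [sum_const, card_range, nsmul_eq_mul]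
    nlinarith [Nat.cast_nonneg (α := ℝ) m]
  obtain ⟨j, hj, hF⟩ := exists_le_of_sum_le ⟨0, mem_range.2 hT⟩ tot
  have ho : ¬ X j o := by simp [X]
  refine ⟨X j, ho, fun e he hu => ?_, ?_⟩
  · obtain ⟨u1, u2, u3⟩ := hun e he hu
    obtain ⟨a1, a2⟩ := abs_le.1 (hπ e he)
    obtain ⟨⟨d1, d2, d3⟩, -⟩ := hy e he
    have := slot_price h (z := (A e).up - y e) hr (by omega) (by omega) u3
    have k : (j : ℝ) < T := by exact_mod_cast mem_range.1 hj
    simp only [Ar.g, Ar.len, (hsl e he u1).1] at a1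
    push_cast at a1
    simp only [X]
    linarith
  · have c := congrArg (Int.cast (R := ℝ)) (hx.cut (X j))
    have : (capIn m A (X j) : ℝ) ≤ ((r * m + Z * m : ℤ) : ℝ) := by
      unfold capIn
      push_cast at c ⊢
      have s1 : ∑ e ∈ range m, (if ¬ X j (A e).tl ∧ X j (A e).hd then ((A e).up : ℝ) else 0) +
          ∑ e ∈ range m, (if X j (A e).tl ∧ ¬ X j (A e).hd then (x e : ℝ) else 0) ≤
          ∑ e ∈ range m, F j e +
          ∑ e ∈ range m, (if ¬ X j (A e).tl ∧ X j (A e).hd then (x e : ℝ) else 0) +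
          ∑ _e ∈ range m, (Z : ℝ) := by
        rw [← sum_add_distrib, ← sum_add_distrib, ← sum_add_distrib]
        refine sum_le_sum fun e he => ?_
        have he := mem_range.1 he
        have a1 : (x e : ℝ) < (A e).up := by exact_mod_cast (hin e he).2.1
        have a2 : (0 : ℝ) ≤ Z := Nat.cast_nonneg _
        have a4 : sl e → ((A e).up : ℝ) ≤ Z := fun k => by exact_mod_cast (hsl e he k).2
        have a3 : ¬ sl e → ((A e).lo : ℝ) ≤ 0 := fun k => by exact_mod_cast (hns e he k).2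
        simp only [F]
        by_cases k1 : X j (A e).tl <;> by_cases k2 : X j (A e).hd <;> by_cases k3 : sl e <;>
          simp only [k1, k2, k3, not_true, not_false_iff, and_true, and_false,
            if_true, if_false, and_self] <;> first | linarith | linarith [a3 k3] | linarith [a4 k3]
      rw [sum_const, card_range, nsmul_eq_mul] at s1
      linarith
    exact_mod_cast this

end Vale.Agent.P305I
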