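import Vale.Agent.P305F.Ipm

/-!
# Primal interior point method, part 0: arcs with a two-sided barrier, lengths and gradients

All flows are integers. An arc has a lower and an upper bound and a reward `lam / Lam` per unit.
-/

namespace Vale.Agent.P305I

open Vale.Agent.P305E Vale.Agent.P305F Finset

/-- The parameters: the scale of lengths, the repulsion of the barrier, a bound for the ranges,
and the inverse accuracy. -/
structure Ip where
  Lam : ℕ
  s : ℕ
  U : ℕ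
  E : ℕ

/-- The conditions on the parameters. -/
structure Ip.OK (P : Ip) : Prop where
  s_pos : 0 < P.s
  U_pos : 0 < P.U
  E_ge : 10 ≤ P.E
  UE : 2 * P.U * P.E ≤ P.Lam

/-- An arc. -/
structure Ar where
  tl : ℕ
  hd : ℕ
  lo : ℤ
  up : ℤ
  lam : ℕ

/-- The scaled slope of the barrier at the slack `y`. -/
def gi (P : Ip) (y : ℤ) : ℕ := gam 1 P.Lam P.s y.toNat

/-- The barrier. -/
noncomputable def psi (P : Ip) (y : ℝ) : ℝ := Real.log (P.U / y) + P.s / y

namespace Ar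

variable (P : Ip) (a : Ar)

/-- The length at the stored flow `x`. -/
def len (x : ℤ) : ℕ := gi P (x - a.lo) + gi P (a.up - x)

/-- The gradient at the stored flow `x`. -/
def g (x : ℤ) : ℤ := (gi P (a.up - x) : ℤ) - gi P (x - a.lo) - a.lam

/-- The potential. -/
noncomputable def phi (x : ℤ) : ℝ :=
  (a.lam : ℝ) / P.Lam * ((a.up : ℝ) - x) + psi P ((x : ℝ) - a.lo) + psi P ((a.up : ℝ) - x)

/-- Interior flows of an arc with bounded range. -/
def In (x : ℤ) : Prop := a.lo < x ∧ x < a.up ∧ a.up - a.lo ≤ P.U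

/-- The stored flow `y` is interior and close to the true flow `x`. -/
def Near (x y : ℤ) : Prop := a.In P y ∧ P.E * (a.len P y * (x - y).natAbs) ≤ P.Lam

end Ar

/-- The total potential. -/
noncomputable def Psi (P : Ip) (m : ℕ) (A : ℕ → Ar) (x : ℕ → ℤ) : ℝ :=
  ∑ e ∈ range m, (A e).phi P (x e)

/-- Circulations. -/
def Circ (m : ℕ) (A : ℕ → Ar) (x : ℕ → ℤ) : Prop :=
  ∀ π : ℕ → ℤ, ∑ e ∈ range m, x e * (π (A e).hd - π (A e).tl) = 0

/-- Approximate centrality of the stored flows. -/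
def Central (P : Ip) (m : ℕ) (A : ℕ → Ar) (y : ℕ → ℤ) : Prop :=
  ∃ π : ℕ → ℝ, ∀ e < m, |((A e).g P (y e) : ℝ) - (π (A e).hd - π (A e).tl)| ≤ (A e).len P (y e)

open Classical in
/-- The sum of the upper bounds of the arcs that enter `X`. -/
noncomputable def capIn (m : ℕ) (A : ℕ → Ar) (X : ℕ → Prop) : ℤ :=
  ∑ e ∈ range m, if ¬ X (A e).tl ∧ X (A e).hd then (A e).up else 0

/-! ### Code -/

/-- Encoding. -/
def Ip.enc (P : Ip) : ℕ × ℕ × ℕ × ℕ := (P.Lam, P.s, P.U, P.E)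

instance : Rep Ip := Rep.comap Ip.enc

/-- Encoding. -/
def Ar.enc (a : Ar) : ℕ × ℕ × ℤ × ℤ × ℕ := (a.tl, a.hd, a.lo, a.up, a.lam)

instance : Rep Ar := Rep.comap Ar.enc

section impl
variable {α : Type} [Rep α]

@[fun_prop] theorem Ip.pLam : Pure Ip.Lam :=
  Pure.of_comap Ip.enc (h := fun p => p.1) (by fun_prop)
@[fun_prop] theorem Ip.ps : Pure Ip.s := Pure.of_comap Ip.enc (h := fun p => p.2.1) (by fun_prop)
@[fun_prop] theorem Ip.pU : Pure Ip.U :=
  Pure.of_comap Ip.enc (h := fun p => p.2.2.1) (by fun_prop)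
@[fun_prop] theorem Ip.pE : Pure Ip.E :=
  Pure.of_comap Ip.enc (h := fun p => p.2.2.2) (by fun_prop)
@[fun_prop] theorem Ip.gLam : Grow Ip.Lam := Ip.pLam.grow
@[fun_prop] theorem Ip.gs : Grow Ip.s := Ip.ps.grow
@[fun_prop] theorem Ip.gU : Grow Ip.U := Ip.pU.grow
@[fun_prop] theorem Ip.gE : Grow Ip.E := Ip.pE.grow
@[fun_prop] theorem Ip.pmk {a b c d : α → ℕ} (h1 : Pure a) (h2 : Pure b) (h3 : Pure c)
    (h4 : Pure d) : Pure fun x => Ip.mk (a x) (b x) (c x) (d x) :=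
  Pure.to_comap Ip.enc (by unfold Ip.enc; fun_prop)

@[fun_prop] theorem Ar.ptl : Pure Ar.tl := Pure.of_comap Ar.enc (h := fun p => p.1) (by fun_prop)
@[fun_prop] theorem Ar.phd : Pure Ar.hd :=
  Pure.of_comap Ar.enc (h := fun p => p.2.1) (by fun_prop)
@[fun_prop] theorem Ar.plo : Pure Ar.lo :=
  Pure.of_comap Ar.enc (h := fun p => p.2.2.1) (by fun_prop)
@[fun_prop] theorem Ar.pup : Pure Ar.up :=
  Pure.of_comap Ar.enc (h := fun p => p.2.2.2.1) (by fun_prop)
@[fun_prop] theorem Ar.plam : Pure Ar.lam :=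
  Pure.of_comap Ar.enc (h := fun p => p.2.2.2.2) (by fun_prop)
@[fun_prop] theorem Ar.gtl : Grow Ar.tl := Ar.ptl.grow
@[fun_prop] theorem Ar.ghd : Grow Ar.hd := Ar.phd.grow
@[fun_prop] theorem Ar.glo : Grow Ar.lo := Ar.plo.grow
@[fun_prop] theorem Ar.gup : Grow Ar.up := Ar.pup.grow
@[fun_prop] theorem Ar.glam : Grow Ar.lam := Ar.plam.grow
@[fun_prop] theorem Ar.pmk {a b : α → ℕ} {c d : α → ℤ} {e : α → ℕ} (h1 : Pure a) (h2 : Pure b)
    (h3 : Pure c) (h4 : Pure d) (h5 : Pure e) :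
    Pure fun x => Ar.mk (a x) (b x) (c x) (d x) (e x) :=
  Pure.to_comap Ar.enc (by unfold Ar.enc; fun_prop)

@[fun_prop] theorem grow_gi {P : α → Ip} {y : α → ℤ} (h1 : Pure P) (h2 : Grow y) :
    Grow fun x => gi (P x) (y x) := by
  have := h2.int_pos
  unfold gi gam
  fun_prop

@[fun_prop] theorem grow_len {P : α → Ip} {a : α → Ar} {y : α → ℤ} (h1 : Pure P) (h2 : Pure a)
    (h3 : Grow y) : Grow fun x => (a x).len (P x) (y x) := by
  unfold Ar.len
  fun_prop

@[fun_prop] theorem grow_g {P : α → Ip} {a : α → Ar} {y : α → ℤ} (h1 : Pure P) (h2 : Pure a)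
    (h3 : Grow y) : Grow fun x => (a x).g (P x) (y x) := by
  unfold Ar.g
  fun_prop

end impl

end Vale.Agent.P305I
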