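import Vale.Agent.P305I.Prog

/-!
# Primal interior point method, part 5: the invariant of the box; insertions
-/

namespace Vale.Agent.P305I

open Vale.Agent.P305E Vale.Agent.P305C Vale.Agent.P305LC Vale.Agent.P305M Finset

/-- Constants of the analysis. -/
structure Cn where
  γ : ℕ
  eta : ℕ
  G : ℕ
  KK : ℕ
  T : ℕ
  W : ℕ
  cp : ℕ
  C0 : ℕ
  k : ℕ

/-- The conditions on the constants. -/
structure KOK (B b0 ρ : ℕ) (K : Kp) (C : Cn) : Prop where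
  ok : K.P.OK
  ρ_pos : 1 ≤ ρ
  r : K.r = ρ * K.D
  D_pos : 0 < K.D
  γ_pos : 1 ≤ C.γ
  gm : K.gm = C.γ
  eta : C.eta = 2 * C.γ * C.G
  G_pos : 0 < C.G
  E : 28 * C.eta ≤ K.P.E * C.G
  near : K.P.E * (C.γ * C.eta) ≤ K.P.Lam
  KK : C.KK * C.G = 2 * K.P.Lam
  sD : 4 * K.P.s * (2 * 2 ^ b0) ≤ K.D
  U1 : 2 ^ b0 * K.D + 2 * K.P.s ≤ K.P.U
  U2 : 4 * K.r + K.P.s ≤ K.P.U
  Uk : K.P.U ≤ 2 ^ C.k
  cp : 62 + 2 * C.k ≤ C.cp
  lam0 : K.lam ≠ 0
  lam1 : K.lam * (4 * K.r) ≤ 60 * K.P.Lam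
  T0 : 0 < C.T
  T1 : 10 * K.P.Lam ≤ K.r * C.T
  T2 : K.P.s * C.T ≤ K.P.Lam
  T3 : K.r * C.T + 3 * K.P.Lam ≤ K.r * K.lam
  C0 : 2 + 2 * ((C.γ + 1) * (C.KK * C.cp)) ≤ C.C0
  W : 4 * K.P.Lam * (2 ^ b0 * C.C0) ^ 2 ≤ C.W * K.P.s
  Wb : C.γ * (C.W + 4 + K.lam) ≤ 2 ^ K.b
  ub : 2 ^ b0 * C.C0 + 3 ≤ 2 ^ K.b
  B2 : 2 * 2 ^ K.b ≤ B
  B3 : K.P.U ≤ B

variable {σ : Type}

/-- The arcs in `S` are the arcs of the engine, and `x` is the true flow. -/
structure Lk (K : Kp) (q : Vr σ) (v : Gh) (x : ℕ → ℤ) (S : Finset ℕ) : Prop where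
  al : v.al = S
  ed : ∀ e ∈ S, v.arc e = item K (q.1.get e) (q.2.1.get e)
  fl : ∀ e ∈ S, x e = q.2.1.get e + v.dl e

/-- The part of the invariant that does not mention the engine. -/
structure Ok (K : Kp) (C : Cn) (G : OG) (m : ℕ) (A : ℕ → Ar) (y x : ℕ → ℤ) (N : ℕ) : Prop where
  rel : Rel G K.P.s K.r K.lam K.D m A y
  circ : Circ m A x
  inx : ∀ e < m, (A e).In K.P (x e)
  iny : ∀ e < m, (A e).In K.P (y e)
  psi : C.KK * Psi K.P m A x ≤ N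

/-- The price of a step. -/
def Cn.t1 (C : Cn) : ℕ := C.γ + 1 + (2 * C.γ + 1) * C.γ

/-- The invariant: `u` bounds the operations of the engine, `φ` is the credit, `k` the measure. -/
def Inv (I : ℕ → ℕ → ℕ → ℕ → Gh → σ → ℕ → ℕ → Prop) (B : ℕ) (K : Kp) (C : Cn) (G : OG) (m : ℕ)
    (q : Vr σ) (u φ k : ℕ) : Prop :=
  ∃ v x R ψ N, I B K.b 1 C.eta v q.2.2 R ψ ∧ Lk K q v x (range m) ∧
    Ok K C G m q.1.get q.2.1.get x N ∧ v.n + R + (C.γ + 1) * N ≤ u ∧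
    ψ + (2 * C.γ + 1) * R + C.t1 * N ≤ φ ∧ R + (C.γ + 1) * N ≤ k

variable [Rep σ] {X : Eng σ} {c : ℕ} {g : ℕ → ℕ} {I : ℕ → ℕ → ℕ → ℕ → Gh → σ → ℕ → ℕ → Prop}
  {B b0 ρ : ℕ} {K : Kp} {C : Cn}

theorem KOK.KK_pos (h : KOK B b0 ρ K C) : 1 ≤ C.KK := by
  have h1 := h.KK
  have h2 := h.ok.lam_pos
  rcases Nat.eq_zero_or_pos C.KK with k | k
  · rw [k] at h1
    omega
  · exact k

theorem KOK.eta_pos (h : KOK B b0 ρ K C) : 0 < C.eta := by
  rw [h.eta]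
  exact Nat.mul_pos (by have := h.γ_pos; omega) h.G_pos

theorem KOK.s_le (h : KOK B b0 ρ K C) : 8 * K.P.s ≤ K.r := by
  have h1 := h.sD
  have h2 : K.P.s * 1 ≤ K.P.s * 2 ^ b0 := Nat.mul_le_mul_left _ Nat.one_le_two_pow
  have h3 : 1 * K.D ≤ ρ * K.D := Nat.mul_le_mul_right _ h.ρ_pos
  rw [h.r]
  nlinarith

theorem KOK.le_C0 (h : KOK B b0 ρ K C) : 2 ^ b0 ≤ 2 ^ b0 * C.C0 :=
  Nat.le_mul_of_pos_right _ (by have := h.C0; omega)

theorem KOK.two_le (h : KOK B b0 ρ K C) : 2 * 2 ^ b0 ≤ 2 ^ K.b := by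
  have := h.ub
  have := Nat.mul_le_mul_left (2 ^ b0) (show 2 ≤ C.C0 by have := h.C0; omega)
  omega

theorem put_vt (hX : EngOK X c g I) (h : KOK B b0 ρ K C) (hγ : g K.b ≤ C.γ) {q : Vr σ}
    {v : Gh} {x : ℕ → ℤ} {S : Finset ℕ} {e R ψ : ℕ} {a : Ar}
    (hI : I B K.b 1 C.eta v q.2.2 R ψ) (hL : Lk K q v x S) (he : e ∉ S) (he' : e ≤ 2 ^ K.b)
    (hu : v.n < 2 ^ K.b) (h1 : a.tl ≤ 2 ^ b0) (h2 : a.hd ≤ 2 ^ b0) (h3 : a.In K.P (x e))
    (h4 : a.phi K.P (x e) ≤ (2 ^ b0 * C.C0 : ℕ)) (h5 : a.lam ≤ K.lam) :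
    Vt K.b B (put X K e a (x e) q) fun q' t => ∃ v' ψ', I B K.b 1 C.eta v' q'.2.2 R ψ' ∧
      Lk K q' v' x (insert e S) ∧ q'.1 = q.1.set e a ∧ q'.2.1 = q.2.1.set e (x e) ∧
      v'.n = v.n + 1 ∧ t + ψ' ≤ ψ + C.γ := by
  have a0 := h.le_C0
  have a1 := Ar.len_le h.ok (a0.trans' Nat.one_le_two_pow) h3 h4 h.W
  have a2 := Ar.natAbs_g_le (P := K.P) (a := a) (x := x e)
  have a3 := Ar.four_le_len (P := K.P) (a := a) (x := x e)
  have a4 := (Nat.le_mul_of_pos_left _ h.γ_pos).trans h.Wb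
  have a5 := h.B2
  have a6 := h.ub
  have a7 : ((K.gm : ℤ) * a.g K.P (x e)).natAbs ≤ 2 ^ K.b := by
    rw [Int.natAbs_mul, Int.natAbs_natCast, h.gm]
    exact (Nat.mul_le_mul_left _ (by omega)).trans h.Wb
  unfold put
  refine Vt.num_bind (by omega) (Vt.need (by omega) ?_)
  refine (hX.ins B K.b _ _ v _ R ψ e (item K a (x e)) hI hu (hL.al ▸ he) he'
    (by simp only [item]; omega) (by simp only [item]; omega) (by simp only [item]; omega)
    (by simp only [item]; omega) a7).bind ?_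
  rintro o t ⟨ψ', k1, k2⟩
  have ne : ∀ f ∈ S, f ≠ e := fun f hf k => he (k ▸ hf)
  refine Vt.pure ⟨_, ψ', k1, ⟨by rw [← hL.al]; rfl, fun f hf => ?_, fun f hf => ?_⟩, rfl, rfl,
    rfl, by omega⟩
  · rcases mem_insert.1 hf with rfl | hf
    · simp [Gh.ins]
    · simp only [Gh.ins, Function.update_of_ne (ne f hf), Arr.get_set_ne _ (ne f hf), hL.ed f hf]
  · rcases mem_insert.1 hf with rfl | hf
    · simp [Gh.ins]
    · simp only [Gh.ins, Function.update_of_ne (ne f hf), Arr.get_set_ne _ (ne f hf), hL.fl f hf]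

theorem add_vt (hX : EngOK X c g I) (h : KOK B b0 ρ K C) (hγ : g K.b ≤ C.γ) {G G' : OG}
    {m : ℕ} {q : Vr σ} {u φ k tl hd up lam : ℕ} (hI : Inv I B K C G m q u φ k)
    (hu : u ≤ 2 ^ b0 * C.C0) (hm : m ≤ 2 * 2 ^ b0) (h1 : tl ≤ 2 ^ b0) (h2 : hd ≤ 2 ^ b0)
    (h3 : K.P.s ≤ up) (h4 : up + K.P.s ≤ K.P.U) (h5 : lam ≤ K.lam) (h6 : lam * up ≤ 60 * K.P.Lam)
    (hR : ∀ (A' : ℕ → Ar) (y' : ℕ → ℤ), Rel G K.P.s K.r K.lam K.D m q.1.get q.2.1.get →
      (∀ e < m, A' e = q.1.get e ∧ y' e = q.2.1.get e) →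
      A' m = ⟨tl, hd, -(K.P.s : ℤ), up, lam⟩ → y' m = 0 →
      Rel G' K.P.s K.r K.lam K.D (m + 1) A' y') :
    Vt K.b B (add X (K, m, q) tl hd up lam) fun S t => ∃ q' φ' k', S = (K, m + 1, q') ∧
      Inv I B K C G' (m + 1) q' (u + 1 + (C.γ + 1) * (C.KK * C.cp)) φ' k' ∧
      t + φ' ≤ φ + C.γ + C.t1 * (C.KK * C.cp) := by
  obtain ⟨v, x, R, ψ, N, i1, i2, i3, i5, i6, -⟩ := hI
  have a0 := h.ok.s_pos
  have a1 := h.ub
  have a2 := h.B2
  have a3 := h.le_C0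
  have a4 := h.two_le
  have hin : (⟨tl, hd, -(K.P.s : ℤ), up, lam⟩ : Ar).In K.P 0 := by
    simp only [Ar.In]
    omega
  have hp : (⟨tl, hd, -(K.P.s : ℤ), up, lam⟩ : Ar).phi K.P 0 ≤ C.cp :=
    (Ar.phi_le h.ok (c := 60) h.Uk (by simp) (by simpa using h3)
      (by simp only [sub_zero]; exact_mod_cast h6)).trans (by
        have := (Nat.cast_le (α := ℝ)).2 h.cp
        push_cast at this ⊢
        linarith)
  have hc : C.cp ≤ 2 ^ b0 * C.C0 := by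
    have := h.C0
    have := Nat.le_mul_of_pos_left C.cp h.KK_pos
    have := Nat.le_mul_of_pos_left (C.KK * C.cp) (show 0 < C.γ + 1 by omega)
    have : C.C0 ≤ 2 ^ b0 * C.C0 := Nat.le_mul_of_pos_left _ (Nat.two_pow_pos _)
    omega
  have old : ∀ e < m, Function.update x m 0 e = x e := fun e he =>
    Function.update_of_ne (by omega) _ _
  have := put_vt hX h hγ (x := Function.update x m 0) (e := m)
    (a := ⟨tl, hd, -(K.P.s : ℤ), up, lam⟩) i1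
    ⟨i2.al, i2.ed, fun e he => by rw [old e (mem_range.1 he)]; exact i2.fl e he⟩
    notMem_range_self (by omega) (by omega) h1 h2 (by simpa using hin)
    (by rw [Function.update_self]; exact hp.trans (by exact_mod_cast hc)) h5
  rw [Function.update_self] at this
  refine this.bind ?_
  rintro q' t ⟨v', ψ', k1, k2, k3, k4, k5, k7⟩
  have hA : ∀ e < m, q'.1.get e = q.1.get e ∧ q'.2.1.get e = q.2.1.get e := fun e he => by
    rw [k3, k4, Arr.get_set_ne _ (by omega), Arr.get_set_ne _ (by omega)]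
    exact ⟨rfl, rfl⟩
  have hm1 : q'.1.get m = ⟨tl, hd, -(K.P.s : ℤ), up, lam⟩ := by rw [k3, Arr.get_set_self]
  have hm2 : q'.2.1.get m = 0 := by rw [k4, Arr.get_set_self]
  refine Vt.num_bind (by simp only; omega) (Vt.pure ⟨q', _, _, rfl, ⟨v', _, R, ψ',
    N + C.KK * C.cp, k1, range_add_one ▸ k2, ⟨hR _ _ i3.rel hA hm1 hm2, ?_, fun e he => ?_,
      fun e he => ?_, ?_⟩, by rw [mul_add]; omega, le_rfl, le_rfl⟩, ?_⟩)
  · exact (i3.circ.congr fun e he => ⟨by rw [(hA e he).1], by rw [(hA e he).1], old e he⟩).succ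
      (Function.update_self ..)
  · rcases Nat.lt_succ_iff_lt_or_eq.1 he with k | rfl
    · rw [(hA e k).1, old e k]
      exact i3.inx e k
    · rwa [hm1, Function.update_self]
  · rcases Nat.lt_succ_iff_lt_or_eq.1 he with k | rfl
    · rw [(hA e k).1, (hA e k).2]
      exact i3.iny e k
    · rwa [hm1, hm2]
  · rw [Psi_succ, Psi_congr fun e he => ⟨(hA e he).1, old e he⟩, hm1, Function.update_self]
    have := mul_le_mul_of_nonneg_left hp (Nat.cast_nonneg (α := ℝ) C.KK)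
    have := i3.psi
    push_cast
    linarith
  · rw [mul_add C.t1]
    omega

omit [Rep σ] in
theorem Inv.rel {G : OG} {m : ℕ} {q : Vr σ} {u φ k : ℕ} (h : Inv I B K C G m q u φ k) :
    Rel G K.P.s K.r K.lam K.D m q.1.get q.2.1.get := by
  obtain ⟨v, x, R, ψ, N, -, -, i3, -⟩ := h
  exact i3.rel

omit [Rep σ] in
theorem Inv.mono {G : OG} {m : ℕ} {q : Vr σ} {u φ k u' : ℕ} (h : Inv I B K C G m q u φ k)
    (hu : u ≤ u') : Inv I B K C G m q u' φ k := by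
  obtain ⟨v, x, R, ψ, N, i1, i2, i3, i5, i6⟩ := h
  exact ⟨v, x, R, ψ, N, i1, i2, i3, i5.trans hu, i6⟩

theorem Rel.m_le {G : OG} {s r l D m : ℕ} {A : ℕ → Ar} {y : ℕ → ℤ} (h : Rel G s r l D m A y) :
    m ≤ 2 * G.size := by
  have := h.cnt
  have := card_le_card h.slv
  unfold OG.size
  omega

/-- The price of an operation. -/
def Cn.cost (C : Cn) : ℕ := 2 * C.γ + 5 + 2 * (C.t1 * (C.KK * C.cp))

theorem barc_vt (hX : EngOK X c g I) (h : KOK B b0 ρ K C) (hγ : g K.b ≤ C.γ) {G : OG}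
    {m : ℕ} {q : Vr σ} {φ k : ℕ} {e : Ac} (hI : Inv I B K C G m q (G.size * C.C0) φ k)
    (hs : G.size < 2 ^ b0) (h1 : e.1 ∈ G.V) (h2 : e.2.1 ∈ G.V) (h3 : e.2.2 ≤ 2 ^ b0) :
    Vt K.b B (barc X (K, m, q) e) fun S t => ∃ m' q' φ' k', S = (K, m', q') ∧
      Inv I B K C (G.arc e) m' q' ((G.arc e).size * C.C0) φ' k' ∧ t + φ' ≤ φ + C.cost := by
  have a1 := hI.rel.vlt _ h1
  have a2 := hI.rel.vlt _ h2
  have a3 := hI.rel.m_le
  have a4 : G.V.card ≤ G.size := by unfold OG.size; omega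
  have a5 := h.U1
  have a6 := Nat.mul_le_mul_right K.D h3
  have a7 := h.ub
  have a8 := h.B2
  have a9 := h.B3
  have a10 := h.le_C0
  have a11 := h.C0
  unfold barc
  refine Vt.num_bind (by omega) (Vt.num_bind (by omega) (Vt.num_bind (by simp only; omega) ?_))
  refine (add_vt hX h hγ (G' := G.arc e) hI (Nat.mul_le_mul_right _ hs.le) (by omega) (by omega)
    (by omega) (by omega) (by omega) (Nat.zero_le _) (by simp)
    fun A' y' k1 k2 k3 _ => k1.arc h1 h2 k2 k3).mono ?_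
  rintro S t ⟨q', φ', k', rfl, k1, k2⟩
  refine ⟨_, _, _, _, rfl, k1.mono ?_, by unfold Cn.cost; omega⟩
  have : (G.arc e).size = G.size + 1 := by simp only [OG.size, OG.arc, List.length_cons]; omega
  rw [this, add_mul G.size]
  omega

theorem bnode_vt (hX : EngOK X c g I) (h : KOK B b0 ρ K C) (hγ : g K.b ≤ C.γ) {G : OG}
    {m : ℕ} {q : Vr σ} {φ k v a : ℕ} {sl : Bool} (hI : Inv I B K C G m q (G.size * C.C0) φ k)
    (hs : G.size < 2 ^ b0) (h1 : v = G.V.card) (h3 : a ≤ 2 ^ b0) :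
    Vt K.b B (bnode X (K, m, q) v a sl) fun S t => ∃ m' q' φ' k', S = (K, m', q') ∧
      Inv I B K C (G.node v a sl) m' q' ((G.node v a sl).size * C.C0) φ' k' ∧
      t + φ' ≤ φ + C.cost := by
  have a1 : v ∉ G.V := fun k => by have := hI.rel.vlt v k; omega
  have a3 := hI.rel.m_le
  have a4 : G.V.card ≤ G.size := by unfold OG.size; omega
  have a5 := h.U1
  have a6 := Nat.mul_le_mul_right K.D h3
  have a7 := h.ub
  have a8 := h.B2
  have a9 := h.B3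
  have a10 := h.le_C0
  have a11 := h.C0
  have a12 := h.U2
  have a13 := h.s_le
  have a14 := h.ok.s_pos
  have a15 : (G.node v a sl).size * C.C0 = G.size * C.C0 + C.C0 := by
    simp only [OG.size, OG.node, card_insert_of_notMem a1]
    ring
  have a16 : (G.size + 1) * C.C0 ≤ 2 ^ b0 * C.C0 := Nat.mul_le_mul_right _ hs
  rw [add_mul] at a16
  unfold bnode
  refine Vt.num_bind (by omega) (Vt.num_bind (by simp only; omega) ?_)
  refine (add_vt hX h hγ (G' := G.node v a false) hI (by omega) (by omega) (by omega)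
    (by omega) (by omega) (by omega) (Nat.zero_le _) (by simp)
    fun A' y' k1 k2 k3 _ => k1.node h1 k2 k3).bind ?_
  rintro S t ⟨q', φ', k', rfl, k1, k2⟩
  cases sl with
  | false => exact Vt.pure ⟨_, _, _, _, rfl, k1.mono (by omega), by unfold Cn.cost; omega⟩
  | true =>
    refine Vt.num_bind (by simp only; omega) ?_
    refine (add_vt hX h hγ (G' := G.node v a true) k1 (by omega) (by omega) (by omega)
      (by omega) (by omega) (by omega) le_rfl h.lam1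
      fun A' y' k1 k2 k3 k4 => k1.slot h.lam0 (by omega) (mem_insert_self _ _)
        (fun k => a1 (hI.rel.slv k)) k2 k3 k4).mono ?_
    rintro S t' ⟨q'', φ'', k'', rfl, k3, k4⟩
    exact ⟨_, _, _, _, rfl, k3.mono (by omega), by unfold Cn.cost; omega⟩

end Vale.Agent.P305I
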