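import Vale.Agent.P305I.Inv

/-!
# Primal interior point method, part 6: refreshes, steps and the search for the next slot
-/

namespace Vale.Agent.P305I

open Vale.Agent.P305E Vale.Agent.P305C Vale.Agent.P305LC Vale.Agent.P305M Finset

variable {σ : Type}

/-- The result of a round. -/
def Res (I : ℕ → ℕ → ℕ → ℕ → Gh → σ → ℕ → ℕ → Prop) (B ρ : ℕ) (K : Kp) (C : Cn) (G : OG)
    (m u φ k : ℕ) (r : Bs σ ⊕ Option ℕ × Bs σ) (t : ℕ) : Prop :=
  Sum.elim (fun S => ∃ q' φ' k', S = (K, m, q') ∧ k' < k ∧ Inv I B K C G m q' u φ' k' ∧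
      t + 1 + φ' ≤ φ)
    (fun o => o.1.elim (G.Stall 5 ρ ∧ t ≤ φ + C.γ) fun v => v ∈ G.slot ∧ v ∉ G.scn ∧
      (G.scan v).Fuel 2 ρ ∧ ∃ q' φ' k', o.2 = (K, m, q') ∧
        Inv I B K C (G.scan v) m q' (u + (C.γ + 1) * (C.KK * C.cp)) φ' k' ∧
        t + φ' ≤ φ + C.t1 * (C.KK * C.cp)) r

variable [Rep σ] {X : Eng σ} {c : ℕ} {g : ℕ → ℕ} {I : ℕ → ℕ → ℕ → ℕ → Gh → σ → ℕ → ℕ → Prop}
  {B b0 ρ : ℕ} {K : Kp} {C : Cn} {G : OG} {m u φ k : ℕ}

theorem fresh_vt (hX : EngOK X c g I) (h : KOK B b0 ρ K C) (hγ : g K.b ≤ C.γ) {q : Vr σ}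
    {v : Gh} {x : ℕ → ℤ} {R ψ N e t : ℕ} (he : e < m)
    (i1 : I B K.b 1 C.eta v q.2.2 R ψ) (i2 : Lk K q v x ((range m).erase e))
    (i3 : Ok K C G m q.1.get q.2.1.get x N) (i5 : v.n + 1 + R + (C.γ + 1) * N ≤ u)
    (i6 : t + ψ + C.γ + 1 + (2 * C.γ + 1) * R + C.t1 * N ≤ φ) (i7 : R + (C.γ + 1) * N < k)
    (hu : u ≤ G.size * C.C0) (hs : G.size < 2 ^ b0) :
    Vt K.b B (fresh X K m e (x e) q) fun r t' => Res I B ρ K C G m u φ k r (t + t') := by
  have a1 := h.ub
  have a2 : (G.size + 1) * C.C0 ≤ 2 ^ b0 * C.C0 := Nat.mul_le_mul_right _ hs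
  rw [add_mul] at a2
  have a3 := h.C0
  have a4 := i3.rel.le he
  have a5 : G.V.card ≤ G.size := by unfold OG.size; omega
  have a6 := h.ok.s_pos
  have a7 := h.s_le
  have a8 : (q.1.get e).lam ≤ K.lam := by
    rcases i3.rel.kind e he with a | a <;> omega
  have a9 := h.two_le
  have a10 := i3.rel.m_le
  have a11 := Nat.le_mul_of_pos_left N (show 0 < C.γ + 1 by omega)
  have a12 := Nat.le_mul_of_pos_left (C.KK * C.cp) (show 0 < C.γ + 1 by omega)
  have hK : (1 : ℝ) ≤ C.KK := by exact_mod_cast h.KK_pos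
  have ins : insert e ((range m).erase e) = range m := insert_erase (mem_range.2 he)
  have bnd : ∀ {A : ℕ → Ar} {N' : ℕ}, (∀ f < m, (A f).In K.P (x f)) →
      C.KK * Psi K.P m A x ≤ N' → N' ≤ 2 ^ b0 * C.C0 →
      (A e).phi K.P (x e) ≤ (2 ^ b0 * C.C0 : ℕ) := by
    intro A N' k1 k2 k3
    have := phi_le_Psi h.ok k1 he
    have := Psi_nonneg h.ok k1
    have := (Nat.cast_le (α := ℝ)).2 k3
    nlinarith
  unfold fresh
  refine Vt.ite (fun ⟨l1, l2, l3⟩ => ?_) fun hn => ?_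
  · obtain ⟨s1, s2, s3, s4, s5⟩ := i3.rel.slot_of he l1 l2
    have hx := i3.inx e he
    have hin : ({q.1.get e with lo := K.r} : Ar).In K.P (x e) := by
      have := h.U2
      simp only [Ar.In] at hx ⊢
      omega
    have hA : ∀ f < m, (Function.update q.1.get e {q.1.get e with lo := K.r} f).In K.P (x f) :=
      fun f hf => by
        by_cases k : f = e
        · rwa [k, Function.update_self]
        · rw [Function.update_of_ne k]
          exact i3.inx f hf
    have hp : C.KK * Psi K.P m (Function.update q.1.get e {q.1.get e with lo := K.r}) x ≤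
        (N + C.KK * C.cp : ℕ) := by
      rw [Psi_update (A := q.1.get) he fun f _ k => Function.update_of_ne k _ _,
        Function.update_self]
      have k1 := Ar.phi_lock h.ok (a := q.1.get e) (x := x e) (l := K.r) (c := 5) hx.1
        (by omega) (by have := hx.2.1; push_cast; omega)
      have k2 : ((5 : ℕ) : ℝ) ≤ C.cp := by exact_mod_cast (by have := h.cp; omega : 5 ≤ C.cp)
      have := i3.psi
      push_cast at *
      nlinarith
    have hb := bnd hA hp (by omega)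
    rw [Function.update_self] at hb
    refine (put_vt hX h hγ i1 i2 (notMem_erase _ _) (by omega) (by omega)
      (a := {q.1.get e with lo := K.r})
      (by simp only; omega) (by simp only; omega) hin hb a8).bind ?_
    rintro q' t' ⟨v', ψ', k1, k2, k3, k4, k5, k7⟩
    have e1 : q'.1.get = Function.update q.1.get e {q.1.get e with lo := K.r} := by rw [k3]; rfl
    have e2 : q'.2.1.get = Function.update q.2.1.get e (x e) := by rw [k4]; rfl
    have r1 : Rel (G.scan ((q.1.get e).tl - 1)) K.P.s K.r K.lam K.D m q'.1.get q'.2.1.get :=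
      i3.rel.lock h.lam0 he l1 l2 (fun f _ k => by
        rw [e1, e2, Function.update_of_ne k, Function.update_of_ne k]
        exact ⟨rfl, rfl⟩) (by rw [e1, Function.update_self])
    have r2 : Circ m q'.1.get x := i3.circ.congr fun f _ => by
      rw [e1]
      by_cases k : f = e
      · simp [k]
      · simp [k]
    have r3 : m ≤ 2 * 2 ^ b0 := by have := i3.rel.m_le; omega
    refine Vt.pure ⟨s4, s5, (h.r ▸ r1).fuel r2 (e1 ▸ hA) h.ρ_pos h.D_pos
      ((Nat.mul_le_mul_left _ r3).trans h.sD), q', _, _, rfl, ⟨v', x, R, ψ',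
      N + C.KK * C.cp, k1, ins ▸ k2, ⟨r1, r2, e1 ▸ hA, fun f hf => ?_, e1 ▸ hp⟩,
      by rw [mul_add]; omega, le_rfl, le_rfl⟩, ?_⟩
    · rw [e1, e2]
      by_cases k : f = e
      · rwa [k, Function.update_self, Function.update_self]
      · rw [Function.update_of_ne k, Function.update_of_ne k]
        exact i3.iny f hf
    · rw [mul_add C.t1]
      omega
  · refine (put_vt hX h hγ i1 i2 (notMem_erase _ _) (by omega) (by omega) (a := q.1.get e)
      (by omega) (by omega) (i3.inx e he) (bnd i3.inx i3.psi (by omega)) a8).bind ?_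
    rintro q' t' ⟨v', ψ', k1, k2, k3, k4, k5, k7⟩
    have e1 : q'.1.get = q.1.get := by rw [k3]; exact Function.update_eq_self _ _
    have e2 : q'.2.1.get = Function.update q.2.1.get e (x e) := by rw [k4]; rfl
    refine Vt.pure ⟨q', _, _, rfl, i7, ⟨v', x, R, ψ', N, k1, ins ▸ k2,
      ⟨i3.rel.refresh a6 h.lam0 (e := e) (fun f _ => by rw [e1])
        (fun f _ k => by rw [e2, Function.update_of_ne k]) (by rwa [e2, Function.update_self]),
        e1 ▸ i3.circ, e1 ▸ i3.inx, fun f hf => ?_, e1 ▸ i3.psi⟩, by omega, le_rfl,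
      le_rfl⟩, by omega⟩
    rw [e1, e2]
    by_cases k : f = e
    · rw [k, Function.update_self]
      exact i3.inx e he
    · rw [Function.update_of_ne k]
      exact i3.iny f hf

theorem body_vt (hX : EngOK X c g I) (h : KOK B b0 ρ K C) (hγ : g K.b ≤ C.γ) {q : Vr σ}
    (hI : Inv I B K C G m q u φ k) (hu : u ≤ G.size * C.C0) (hs : G.size < 2 ^ b0) :
    Vt K.b B (body X (K, m, q)) (Res I B ρ K C G m u φ k) := by
  obtain ⟨v, x, R, ψ, N, i1, i2, i3, i5, i6, i7⟩ := hI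
  have a3 := h.eta_pos
  have a4 := h.γ_pos
  have a5 : (0 : ℝ) < C.γ := by exact_mod_cast a4
  have near : v.Clean (g K.b * C.eta) → ∀ e < m, (q.1.get e).Near K.P (x e) (q.2.1.get e) :=
    fun hc e he => by
      have b1 := hc e (i2.al ▸ mem_range.2 he)
      rw [i2.ed e (mem_range.2 he)] at b1
      refine ⟨i3.iny e he, le_trans (Nat.mul_le_mul_left _ ?_) h.near⟩
      rw [i2.fl e (mem_range.2 he), add_sub_cancel_left, mul_comm]
      exact b1.trans (Nat.mul_le_mul_right _ hγ)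
  unfold body
  refine (hX.step B K.b _ _ v _ R ψ i1).bind ?_
  rintro ⟨_ | _ | ⟨e, d⟩, s1⟩ t hr
  · obtain ⟨g1, ⟨π, hπ⟩, g3⟩ := hr
    refine Vt.pure ⟨(h.r ▸ i3.rel).stall h.ok i3.circ i3.inx (near g1)
      ⟨fun w => π w / C.γ, fun e he => ?_⟩ h.D_pos h.lam0 h.T0
      (by have := h.s_le; rw [← h.r]; omega) (h.r ▸ h.T1) h.T2 (h.r ▸ h.T3), by omega⟩
    have k1 := hπ e (i2.al ▸ mem_range.2 he)
    have k2 : ((g K.b * 1 : ℕ) : ℝ) ≤ C.γ := by exact_mod_cast (by omega : g K.b * 1 ≤ C.γ)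
    simp only [i2.ed e (mem_range.2 he), item, h.gm, Int.cast_mul, Int.cast_natCast] at k1
    rw [← sub_div, ← mul_le_mul_iff_right₀ a5, ← abs_of_pos a5, ← abs_mul, abs_of_pos a5, mul_sub,
      mul_div_cancel₀ _ a5.ne']
    exact k1.trans (mul_le_mul_of_nonneg_right k2 (Nat.cast_nonneg _))
  · obtain ⟨g1, d, ψ', ⟨n1, n2, n3⟩, l1, l2⟩ := hr
    have ed := i2.ed
    rw [i2.al, sum_congr rfl fun e he => by rw [ed e he, mul_comm]] at n2
    rw [i2.al, sum_congr (g := fun e => C.γ * ((q.1.get e).g K.P (q.2.1.get e) * d e)) rfl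
      fun e he => by rw [ed e he, item, h.gm]; ring, ← mul_sum, h.eta] at n3
    have n4 : ∑ e ∈ range m, (q.1.get e).g K.P (q.2.1.get e) * d e ≤ -C.G := by
      refine le_of_mul_le_mul_left (a := (2 * C.γ : ℤ)) ?_ (by omega)
      push_cast at n3
      linarith
    obtain ⟨p1, p2⟩ := step h.ok i3.inx (near g1) (d := d) n2
      ((Nat.mul_le_mul_left _ (Nat.le_mul_of_pos_left _ a4)).trans h.near) n4 h.E
    have p3 := Psi_nonneg h.ok p1
    have p4 : (C.KK : ℝ) * (C.G / (2 * K.P.Lam)) = 1 := by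
      have : (0 : ℝ) < K.P.Lam := by exact_mod_cast h.ok.lam_pos
      have e : (C.KK : ℝ) * C.G = 2 * K.P.Lam := by exact_mod_cast h.KK
      rw [← mul_div_assoc, e, div_self (by positivity)]
    have p5 := mul_le_mul_of_nonneg_left p2 (Nat.cast_nonneg (α := ℝ) C.KK)
    have p6 := i3.psi
    have p7 := mul_nonneg (Nat.cast_nonneg (α := ℝ) C.KK) p3
    obtain ⟨N, rfl⟩ : ∃ N', N = N' + 1 := by
      cases N with
      | zero => exact absurd p6 (by push_cast; linarith)
      | succ N => exact ⟨N, rfl⟩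
    rw [mul_add _ N] at i5 i6 i7
    have p8 := Nat.mul_le_mul_left (2 * C.γ + 1) hγ
    refine Vt.pure ⟨(q.1, q.2.1, s1), _, R + g K.b + (C.γ + 1) * N, rfl, by omega,
      ⟨v.push d, fun e => x e + d e, R + g K.b, ψ', N, l1,
        ⟨i2.al, ed, fun e he => by rw [i2.fl e he, add_assoc]; rfl⟩,
        ⟨i3.rel, i3.circ.add fun π => ?_, p1, i3.iny, by push_cast at p6; linarith⟩,
        by simp only [Gh.push]; omega, le_rfl, le_rfl⟩, ?_⟩
    · rw [← n1 π, i2.al]
      exact sum_congr rfl fun e he => by rw [ed e he]; rfl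
    · rw [mul_add]
      unfold Cn.t1 at *
      omega
  · obtain ⟨g1, g2, R, ψ', rfl, g3, g4⟩ := hr
    have he : e ∈ range m := i2.al ▸ g1
    have hx := i3.inx e (mem_range.1 he)
    simp only at g2 g3
    simp only [Option.elim_some, g2, ← i2.fl e he]
    refine Vt.need (by
      have := h.B3
      have := h.U2
      rcases i3.rel.kind e (mem_range.1 he) with a | ⟨-, -, a, -⟩ <;>
        simp only [Ar.In] at hx <;> omega) ?_
    rw [mul_add] at i6
    exact fresh_vt hX h hγ (q := (q.1, q.2.1, s1)) (v := v.del e) (mem_range.1 he) g3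
      ⟨by rw [← i2.al]; rfl, fun f hf => i2.ed f (mem_of_mem_erase hf),
        fun f hf => i2.fl f (mem_of_mem_erase hf)⟩ i3 (by simp only [Gh.del]; omega) (by omega)
      (by omega) hu hs

theorem bnext_vt (hX : EngOK X c g I) (h : KOK B b0 ρ K C) (hγ : g K.b ≤ C.γ) {q : Vr σ}
    (hI : Inv I B K C G m q (G.size * C.C0) φ k) (hs : G.size < 2 ^ b0) :
    Vt K.b B (bnext X (K, m, q)) fun o t => o.1.elim (G.Stall 5 ρ ∧ t ≤ φ + C.cost) fun v =>
      v ∈ G.slot ∧ v ∉ G.scn ∧ (G.scan v).Fuel 2 ρ ∧ ∃ m' q' φ' k', o.2 = (K, m', q') ∧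
        Inv I B K C (G.scan v) m' q' ((G.scan v).size * C.C0) φ' k' ∧ t + φ' ≤ φ + C.cost := by
  obtain ⟨v, x, R, ψ, N, i1, i2, i3, i5, i6, -⟩ := hI
  have a1 := h.ub
  have a2 : G.size * C.C0 ≤ 2 ^ b0 * C.C0 := Nat.mul_le_mul_right _ hs.le
  have a3 := h.C0
  refine Vt.loopG (fun S t k => ∃ q' φ', S = (K, m, q') ∧ Inv I B K C G m q' (G.size * C.C0) φ' k ∧
    t + φ' ≤ φ) ?_ ⟨q, φ, rfl, ⟨v, x, R, ψ, N, i1, i2, i3, i5, i6, le_rfl⟩, by omega⟩
    (by simp only; omega)
  rintro _ t k ⟨q', φ', rfl, k1, k2⟩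
  refine (body_vt hX h hγ k1 le_rfl hs).mono fun r t' hr => ?_
  cases r with
  | inl S =>
    obtain ⟨q'', φ'', k', rfl, l1, l2, l3⟩ := hr
    exact ⟨k', l1, q'', φ'', rfl, l2, by omega⟩
  | inr o =>
    obtain ⟨o, S⟩ := o
    cases o with
    | none => exact ⟨hr.1, by have := hr.2; unfold Cn.cost; omega⟩
    | some w =>
      obtain ⟨l1, l2, l3, q'', φ'', k', l4, l5, l6⟩ := hr
      refine ⟨l1, l2, l3, m, q'', φ'', k', l4, l5.mono ?_, by unfold Cn.cost; omega⟩
      have : (G.scan w).size = G.size + 1 := by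
        simp only [OG.size, OG.scan, card_insert_of_notMem l2]
        omega
      rw [this, add_mul G.size]
      omega

end Vale.Agent.P305I
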