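import Vale.Agent.P305I.Rel
import Vale.Agent.P305M.Defs

/-!
# Primal interior point method, part 4: the programs of the box
-/

namespace Vale.Agent.P305I

open Vale.Agent.P305E Vale.Agent.P305C Vale.Agent.P305LC Vale.Agent.P305M

/-- The constants: bits of the engine, barrier, size of a slot, unit, reward, overhead. -/
structure Kp where
  b : ℕ
  P : Ip
  r : ℕ
  D : ℕ
  lam : ℕ
  gm : ℕ

/-- Encoding. -/
def Kp.enc (K : Kp) : ℕ × Ip × ℕ × ℕ × ℕ × ℕ := (K.b, K.P, K.r, K.D, K.lam, K.gm)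

instance : Rep Kp := Rep.comap Kp.enc

/-- The variables: arcs, stored flows, state of the engine. -/
abbrev Vr (σ : Type) : Type := Arr Ar × Arr ℤ × σ

/-- The state of the box. -/
abbrev Bs (σ : Type) : Type := Kp × ℕ × Vr σ

variable {σ : Type}

/-- The edge of the engine for an arc with a stored flow. -/
def item (K : Kp) (a : Ar) (y : ℤ) : RA := (a.tl, a.hd, a.len K.P y, K.gm * a.g K.P y)

/-- Give the arc `a` with the number `e` and the flow `y` to the engine. -/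
def put (X : Eng σ) (K : Kp) (e : ℕ) (a : Ar) (y : ℤ) (q : Vr σ) : M (Vr σ) :=
  num (a.len K.P y) >>= fun l => inum (K.gm * a.g K.P y) >>= fun g =>
  X.ins q.2.2 e (a.tl, a.hd, l, g) >>= fun o => pure (q.1.set e a, q.2.1.set e y, o)

/-- A new arc. -/
def add (X : Eng σ) (S : Bs σ) (tl hd up lam : ℕ) : M (Bs σ) :=
  put X S.1 S.2.1 ⟨tl, hd, -(S.1.P.s : ℤ), (up : ℤ), lam⟩ 0 S.2.2 >>= fun q =>
  num (S.2.1 + 1) >>= fun m => pure (S.1, m, q)

/-- A new node. -/
def bnode (X : Eng σ) (S : Bs σ) (v a : ℕ) (sl : Bool) : M (Bs σ) :=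
  num (v + 1) >>= fun w => num (a * S.1.D + S.1.P.s) >>= fun u => add X S 0 w u 0 >>= fun S' =>
  if sl = true then num (4 * S.1.r) >>= fun u' => add X S' w 0 u' S.1.lam else pure S'

/-- A new arc of the online graph. -/
def barc (X : Eng σ) (S : Bs σ) (c : Ac) : M (Bs σ) :=
  num (c.1 + 1) >>= fun t => num (c.2.1 + 1) >>= fun h => num (c.2.2 * S.1.D + S.1.P.s) >>=
    fun u => add X S t h u 0

/-- The arc `e` is refreshed with the flow `y`, and locked if it is a full slot. -/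
def fresh (X : Eng σ) (K : Kp) (m e : ℕ) (y : ℤ) (q : Vr σ) : M (Bs σ ⊕ Option ℕ × Bs σ) :=
  if (q.1.get e).lam ≠ 0 ∧ (q.1.get e).lo < 0 ∧ 2 * (K.r : ℤ) ≤ y then
    put X K e ⟨(q.1.get e).tl, (q.1.get e).hd, (K.r : ℤ), (q.1.get e).up, (q.1.get e).lam⟩ y q >>=
      fun q' => pure (.inr (some ((q.1.get e).tl - 1), K, m, q'))
  else put X K e (q.1.get e) y q >>= fun q' => pure (.inl (K, m, q'))

/-- One round: a refresh, or a step. -/
def body (X : Eng σ) (S : Bs σ) : M (Bs σ ⊕ Option ℕ × Bs σ) :=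
  X.step S.2.2.2.2 >>= fun o => o.1.elim (pure (.inr (none, S.1, S.2.1, S.2.2.1, S.2.2.2.1, o.2)))
    fun o' => o'.elim (pure (.inl (S.1, S.2.1, S.2.2.1, S.2.2.2.1, o.2))) fun p =>
      inum (S.2.2.2.1.get p.1 + p.2) >>= fun y =>
        fresh X S.1 S.2.1 p.1 y (S.2.2.1, S.2.2.2.1, o.2)

/-- The next slot. -/
def bnext (X : Eng σ) (S : Bs σ) : M (Option ℕ × Bs σ) := loopM (body X) (2 ^ S.1.b) S

section impl
variable {α : Type} [Rep α] [Rep σ]

@[fun_prop] theorem Kp.pb : Pure Kp.b := Pure.of_comap Kp.enc (h := fun p => p.1) (by fun_prop)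
@[fun_prop] theorem Kp.pP : Pure Kp.P := Pure.of_comap Kp.enc (h := fun p => p.2.1) (by fun_prop)
@[fun_prop] theorem Kp.pr : Pure Kp.r :=
  Pure.of_comap Kp.enc (h := fun p => p.2.2.1) (by fun_prop)
@[fun_prop] theorem Kp.pD : Pure Kp.D :=
  Pure.of_comap Kp.enc (h := fun p => p.2.2.2.1) (by fun_prop)
@[fun_prop] theorem Kp.plam : Pure Kp.lam :=
  Pure.of_comap Kp.enc (h := fun p => p.2.2.2.2.1) (by fun_prop)
@[fun_prop] theorem Kp.pgm : Pure Kp.gm :=
  Pure.of_comap Kp.enc (h := fun p => p.2.2.2.2.2) (by fun_prop)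
@[fun_prop] theorem Kp.ggm : Grow Kp.gm := Kp.pgm.grow
@[fun_prop] theorem Kp.gr : Grow Kp.r := Kp.pr.grow
@[fun_prop] theorem Kp.gD : Grow Kp.D := Kp.pD.grow
@[fun_prop] theorem Kp.pmk {a : α → ℕ} {b : α → Ip} {c d e f : α → ℕ} (h1 : Pure a) (h2 : Pure b)
    (h3 : Pure c) (h4 : Pure d) (h5 : Pure e) (h6 : Pure f) :
    Pure fun x => Kp.mk (a x) (b x) (c x) (d x) (e x) (f x) :=
  Pure.to_comap Kp.enc (by unfold Kp.enc; fun_prop)

variable {X : Eng σ}

theorem impl_put (h : Impl fun p : σ × ℕ × RA => X.ins p.1 p.2.1 p.2.2) :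
    Impl fun p : Kp × ℕ × Ar × ℤ × Vr σ => put X p.1 p.2.1 p.2.2.1 p.2.2.2.1 p.2.2.2.2 := by
  unfold put
  refine Impl.bind (by fun_prop) (Impl.bind (by fun_prop) (Impl.bind ?_ (by fun_prop)))
  exact Impl.comp (g := fun a : ((Kp × ℕ × Ar × ℤ × Vr σ) × ℕ) × ℤ =>
    (a.1.1.2.2.2.2.2.2, a.1.1.2.1, a.1.1.2.2.1.tl, a.1.1.2.2.1.hd, a.1.2, a.2)) h (by fun_prop)

theorem impl_put' (h : Impl fun p : σ × ℕ × RA => X.ins p.1 p.2.1 p.2.2) {K : α → Kp}
    {e : α → ℕ} {a : α → Ar} {y : α → ℤ} {q : α → Vr σ} (h1 : Pure K) (h2 : Pure e) (h3 : Pure a)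
    (h4 : Pure y) (h5 : Pure q) : Impl fun x => put X (K x) (e x) (a x) (y x) (q x) :=
  Impl.comp (g := fun x => (K x, e x, a x, y x, q x)) (impl_put h) (by fun_prop)

theorem impl_add (h : Impl fun p : σ × ℕ × RA => X.ins p.1 p.2.1 p.2.2) {S : α → Bs σ}
    {a b c d : α → ℕ} (h1 : Pure S) (h2 : Pure a) (h3 : Pure b) (h4 : Pure c) (h5 : Pure d) :
    Impl fun x => add X (S x) (a x) (b x) (c x) (d x) := by
  unfold add
  exact Impl.bind (impl_put' h (by fun_prop) (by fun_prop) (by fun_prop) (by fun_prop)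
    (by fun_prop)) (by fun_prop)

theorem impl_bnode (h : Impl fun p : σ × ℕ × RA => X.ins p.1 p.2.1 p.2.2) :
    Impl fun p : Bs σ × ℕ × ℕ × Bool => bnode X p.1 p.2.1 p.2.2.1 p.2.2.2 := by
  unfold bnode
  refine Impl.bind (by fun_prop) (Impl.bind (by fun_prop) (Impl.bind
    (impl_add h ?_ ?_ ?_ ?_ ?_) (Impl.ite (by fun_prop) (Impl.bind (by fun_prop)
      (impl_add h ?_ ?_ ?_ ?_ ?_)) (by fun_prop)))) <;> fun_prop

theorem impl_barc (h : Impl fun p : σ × ℕ × RA => X.ins p.1 p.2.1 p.2.2) :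
    Impl fun p : Bs σ × Ac => barc X p.1 p.2 := by
  unfold barc
  refine Impl.bind (by fun_prop) (Impl.bind (by fun_prop) (Impl.bind (by fun_prop)
    (impl_add h ?_ ?_ ?_ ?_ ?_))) <;> fun_prop

theorem impl_fresh (h : Impl fun p : σ × ℕ × RA => X.ins p.1 p.2.1 p.2.2) {K : α → Kp}
    {m e : α → ℕ} {y : α → ℤ} {q : α → Vr σ} (h1 : Pure K) (h2 : Pure m) (h3 : Pure e)
    (h4 : Pure y) (h5 : Pure q) : Impl fun x => fresh X (K x) (m x) (e x) (y x) (q x) := by
  unfold fresh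
  refine Impl.ite (by fun_prop) (Impl.bind (impl_put' h ?_ ?_ ?_ ?_ ?_) (by fun_prop))
    (Impl.bind (impl_put' h ?_ ?_ ?_ ?_ ?_) (by fun_prop)) <;> fun_prop

theorem impl_body (h : Impl fun p : σ × ℕ × RA => X.ins p.1 p.2.1 p.2.2) (hs : Impl X.step) :
    Impl (body X) := by
  unfold body
  refine Impl.bind (Impl.comp (g := fun S : Bs σ => S.2.2.2.2) hs (by fun_prop))
    (Impl.optElim (by fun_prop) (by fun_prop) (Impl.optElim (by fun_prop) (by fun_prop)
      (Impl.bind (by fun_prop) (impl_fresh h ?_ ?_ ?_ ?_ ?_)))) <;> fun_prop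

theorem impl_bnext (h : Impl fun p : σ × ℕ × RA => X.ins p.1 p.2.1 p.2.2) (hs : Impl X.step) :
    Impl (bnext X) :=
  Impl.loopM (F := fun _ => body X) (s := fun S => S) (fuel := fun S : Bs σ => 2 ^ S.1.b)
    (Impl.comp (g := fun p : Bs σ × Bs σ => p.2) (impl_body h hs) (by fun_prop)) (by fun_prop)

end impl

/-- The rule for loops with a measure that is not a function of the state. -/
theorem Vt.loopG {τ β : Type} {d B : ℕ} {F : τ → M (τ ⊕ β)} {Q : β → ℕ → Prop}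
    (I : τ → ℕ → ℕ → Prop)
    (hstep : ∀ s t k, I s t k → Vt d B (F s) fun r t' =>
      Sum.elim (fun s' => ∃ k' < k, I s' (t + t' + 1) k') (fun b => Q b (t + t')) r)
    {n k : ℕ} {s : τ} (h0 : I s 0 k) (hn : k < n) : Vt d B (loopM F n s) Q := by
  have : ∀ n s t k, I s t k → k < n → Vt d B (loopM F n s) fun b t' => Q b (t + t') := by
    intro n
    induction n with
    | zero => intro s t k _ h; omega
    | succ n ih =>
      intro s t k hI hn
      refine (hstep s t k hI).bind fun r t' hr => ?_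
      cases r with
      | inl s' =>
        obtain ⟨k', h1, h2⟩ := hr
        refine Vt.tick ((ih s' _ k' h2 (by omega)).mono fun b t'' h => ?_)
        rwa [show t + (t' + (t'' + 1)) = t + t' + 1 + t'' by omega]
      | inr b => exact Vt.pure hr
  simpa using this n s 0 k h0 hn

end Vale.Agent.P305I
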