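import Vale.Agent.P305I.Cut
import Vale.Agent.P305LC.Defs

/-!
# Primal interior point method, part 3: the arcs that represent an online graph
-/

namespace Vale.Agent.P305I

open Vale.Agent.P305E Vale.Agent.P305LC Finset

/-- The vertex `0` is the ground, the node `v` is the vertex `v + 1`. -/
def lft (X : Finset ℕ) (w : ℕ) : Prop := w ≠ 0 ∧ w - 1 ∈ X

@[simp] theorem lft_zero (X : Finset ℕ) : ¬ lft X 0 := fun h => h.1 rfl
@[simp] theorem lft_succ (X : Finset ℕ) (v : ℕ) : lft X (v + 1) ↔ v ∈ X := by simp [lft]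

/-- The two kinds of arcs. -/
def Kind (G : OG) (s r l : ℕ) (a : Ar) (y : ℤ) : Prop :=
  (a.lam = 0 ∧ a.lo = -s ∧ 0 ≤ a.up) ∨ (a.lam = l ∧ a.hd = 0 ∧ a.up = 4 * r ∧
    ∃ v ∈ G.slot, a.tl = v + 1 ∧ ((a.lo = -s ∧ v ∉ G.scn ∧ y < 2 * r) ∨ (a.lo = r ∧ v ∈ G.scn)))

/-- The arcs `A 0, …, A (m - 1)` with the stored flows `y` represent `G`. -/
structure Rel (G : OG) (s r l D m : ℕ) (A : ℕ → Ar) (y : ℕ → ℤ) : Prop where
  sup0 : ∀ v ∉ G.V, G.sup v = 0
  vlt : ∀ v ∈ G.V, v < G.V.card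
  slv : G.slot ⊆ G.V
  scs : G.scn ⊆ G.slot
  cap : ∀ X, (D * G.fuel X : ℤ) ≤ capIn m A (lft X) ∧ capIn m A (lft X) ≤ D * G.fuel X + s * m
  cnt : m ≤ G.slot.card + G.V.card + G.arcs.length
  ends : ∀ e < m, ((A e).tl = 0 ∨ lft G.V (A e).tl) ∧ ((A e).hd = 0 ∨ lft G.V (A e).hd)
  kind : ∀ e < m, Kind G s r l (A e) (y e)
  inj : ∀ e < m, ∀ f < m, (A e).lam ≠ 0 → (A f).lam ≠ 0 → (A e).tl = (A f).tl → e = f
  sur : ∀ v ∈ G.slot, ∃ e < m, (A e).lam ≠ 0 ∧ (A e).tl = v + 1

variable {G : OG} {s r l D m : ℕ} {A A' : ℕ → Ar} {x y y' : ℕ → ℤ} {P : Ip}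

open Classical in
theorem capIn_succ (h : ∀ e < m, A' e = A e) (X : ℕ → Prop) : capIn (m + 1) A' X =
    capIn m A X + if ¬ X (A' m).tl ∧ X (A' m).hd then (A' m).up else 0 := by
  unfold capIn
  rw [sum_range_succ, sum_congr rfl fun e he => by rw [h e (mem_range.1 he)]]

open Classical in
theorem capIn_congr {X X' : ℕ → Prop} (h : ∀ e < m, (A' e).up = (A e).up ∧
    (X' (A' e).tl ↔ X (A e).tl) ∧ (X' (A' e).hd ↔ X (A e).hd)) : capIn m A' X' = capIn m A X :=
  sum_congr rfl fun e he => by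
    obtain ⟨h1, h2, h3⟩ := h e (mem_range.1 he)
    exact if_congr (by rw [h2, h3]) h1 rfl

theorem Rel.empty : Rel OG.empty s r l D 0 A y := by
  refine ⟨?_, ?_, ?_, ?_, fun X => ?_, ?_, ?_, ?_, ?_, ?_⟩ <;>
    simp [OG.empty, capIn, OG.fuel, P305LC.capIn]

theorem Rel.le (h : Rel G s r l D m A y) {e : ℕ} (he : e < m) :
    (A e).tl ≤ G.V.card ∧ (A e).hd ≤ G.V.card := by
  obtain ⟨h1, h2⟩ := h.ends e he
  constructor
  · rcases h1 with k | k
    · omega
    · have := h.vlt _ k.2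
      omega
  · rcases h2 with k | k
    · omega
    · have := h.vlt _ k.2
      omega

/-- A new node with its supply arc. -/
theorem Rel.node (h : Rel G s r l D m A y) {v a : ℕ} (hv : v = G.V.card)
    (hA : ∀ e < m, A' e = A e ∧ y' e = y e) (hm : A' m = ⟨0, v + 1, -s, (a * D + s : ℕ), 0⟩) :
    Rel (G.node v a false) s r l D (m + 1) A' y' := by
  have hn : v ∉ G.V := fun k => by have := h.vlt v k; omega
  have old : ∀ w, lft G.V w → lft (insert v G.V) w := fun w k => ⟨k.1, mem_insert_of_mem k.2⟩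
  refine ⟨fun w hw => ?_, fun w hw => ?_, h.slv.trans (subset_insert _ _), h.scs, fun X => ?_, ?_,
    fun e he => ?_, fun e he => ?_, fun e he f hf => ?_, fun w hw => ?_⟩
  · simp only [OG.node, mem_insert, not_or] at hw ⊢
    rw [Function.update_of_ne hw.1, h.sup0 w hw.2]
  · simp only [OG.node, mem_insert, card_insert_of_notMem hn] at hw ⊢
    rcases hw with rfl | k
    · omega
    · have := h.vlt w k
      omega
  · have e : (G.node v a false).fuel X = G.fuel X + if v ∈ X then a else 0 := by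
      simp only [OG.fuel, OG.node]
      split_ifs with k
      · rw [sum_update_of_mem k, ← add_sum_erase _ _ k, h.sup0 v hn, sdiff_singleton_eq_erase]
        omega
      · rw [sum_update_of_notMem k, add_zero]
    have := h.cap X
    rw [capIn_succ (fun e he => (hA e he).1), hm, e]
    by_cases k : v ∈ X <;> simp only [k, lft_zero, lft_succ, not_false_iff, and_true, and_false,
      if_true, if_false] <;> push_cast <;> constructor <;> nlinarith [Nat.zero_le s]
  · have := h.cnt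
    simp only [OG.node, card_insert_of_notMem hn, Bool.false_eq_true, if_false]
    omega
  · rcases Nat.lt_succ_iff_lt_or_eq.1 he with k | rfl
    · rw [(hA e k).1]
      exact ⟨(h.ends e k).1.imp_right (old _), (h.ends e k).2.imp_right (old _)⟩
    · simp [hm, OG.node]
  · rcases Nat.lt_succ_iff_lt_or_eq.1 he with k | rfl
    · rw [(hA e k).1, (hA e k).2]
      exact h.kind e k
    · exact Or.inl (by rw [hm]; exact ⟨rfl, rfl, Int.natCast_nonneg _⟩)
  · rcases Nat.lt_succ_iff_lt_or_eq.1 he with k | rfl <;>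
      rcases Nat.lt_succ_iff_lt_or_eq.1 hf with k' | rfl
    · rw [(hA e k).1, (hA f k').1]
      exact h.inj e k f k'
    all_goals simp [hm]
  · obtain ⟨e, he, k⟩ := h.sur w hw
    exact ⟨e, by omega, by rwa [(hA e he).1]⟩

/-- A new arc. -/
theorem Rel.arc (h : Rel G s r l D m A y) {c : Ac} (h1 : c.1 ∈ G.V) (h2 : c.2.1 ∈ G.V)
    (hA : ∀ e < m, A' e = A e ∧ y' e = y e)
    (hm : A' m = ⟨c.1 + 1, c.2.1 + 1, -s, (c.2.2 * D + s : ℕ), 0⟩) :
    Rel (G.arc c) s r l D (m + 1) A' y' := by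
  refine ⟨h.sup0, h.vlt, h.slv, h.scs, fun X => ?_, ?_,
    fun e he => ?_, fun e he => ?_, fun e he f hf => ?_, fun w hw => ?_⟩
  · have e : (G.arc c).fuel X = G.fuel X + if c.1 ∉ X ∧ c.2.1 ∈ X then c.2.2 else 0 := by
      simp only [OG.fuel, OG.arc, P305LC.capIn, List.map_cons, List.sum_cons]
      omega
    have := h.cap X
    rw [capIn_succ (fun e he => (hA e he).1), hm, e]
    simp only [lft_succ]
    split_ifs <;> push_cast <;> constructor <;> nlinarith [Nat.zero_le s]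
  · have := h.cnt
    simp only [OG.arc, List.length_cons]
    omega
  · rcases Nat.lt_succ_iff_lt_or_eq.1 he with k | rfl
    · rw [(hA e k).1]
      exact h.ends e k
    · simp [hm, OG.arc, h1, h2]
  · rcases Nat.lt_succ_iff_lt_or_eq.1 he with k | rfl
    · rw [(hA e k).1, (hA e k).2]
      exact h.kind e k
    · exact Or.inl (by rw [hm]; exact ⟨rfl, rfl, Int.natCast_nonneg _⟩)
  · rcases Nat.lt_succ_iff_lt_or_eq.1 he with k | rfl <;>
      rcases Nat.lt_succ_iff_lt_or_eq.1 hf with k' | rfl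
    · rw [(hA e k).1, (hA f k').1]
      exact h.inj e k f k'
    all_goals simp [hm]
  · obtain ⟨e, he, k⟩ := h.sur w hw
    exact ⟨e, by omega, by rwa [(hA e he).1]⟩

/-- The node `v` becomes a slot. -/
theorem Rel.slot (h : Rel G s r l D m A y) (hl : l ≠ 0) (hr : 0 < r) {v : ℕ} (h1 : v ∈ G.V)
    (h2 : v ∉ G.slot) (hA : ∀ e < m, A' e = A e ∧ y' e = y e)
    (hm : A' m = ⟨v + 1, 0, -s, (4 * r : ℕ), l⟩) (hy : y' m = 0) :
    Rel ⟨G.V, G.sup, insert v G.slot, G.arcs, G.scn⟩ s r l D (m + 1) A' y' := by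
  have ne : ∀ e < m, (A e).lam ≠ 0 → (A e).tl ≠ v + 1 := fun e he k k' => by
    rcases h.kind e he with a | ⟨-, -, -, w, hw, a, -⟩
    · exact k a.1
    · exact h2 ((by omega : w = v) ▸ hw)
  refine ⟨h.sup0, h.vlt, insert_subset h1 h.slv, h.scs.trans (subset_insert _ _), fun X => ?_, ?_,
    fun e he => ?_, fun e he => ?_, fun e he f hf => ?_, fun w hw => ?_⟩
  · have := h.cap X
    rw [capIn_succ (fun e he => (hA e he).1), hm]
    simp only [lft_zero, and_false, if_false, OG.fuel] at this ⊢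
    push_cast at this ⊢
    constructor <;> nlinarith [Nat.zero_le s]
  · have := h.cnt
    simp only [card_insert_of_notMem h2]
    omega
  · rcases Nat.lt_succ_iff_lt_or_eq.1 he with k | rfl
    · rw [(hA e k).1]
      exact h.ends e k
    · simp [hm, h1]
  · rcases Nat.lt_succ_iff_lt_or_eq.1 he with k | rfl
    · rw [(hA e k).1, (hA e k).2]
      exact (h.kind e k).imp_right fun ⟨a, b, c, w, hw, d⟩ =>
        ⟨a, b, c, w, mem_insert_of_mem hw, d⟩
    · refine Or.inr ?_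
      rw [hm, hy]
      exact ⟨rfl, rfl, by simp, v, mem_insert_self _ _, rfl,
        Or.inl ⟨rfl, fun k => h2 (h.scs k), by omega⟩⟩
  · rcases Nat.lt_succ_iff_lt_or_eq.1 he with k | rfl <;>
      rcases Nat.lt_succ_iff_lt_or_eq.1 hf with k' | rfl
    · rw [(hA e k).1, (hA f k').1]
      exact h.inj e k f k'
    · rw [(hA e k).1, hm]
      exact fun a _ b => absurd b (ne e k a)
    · rw [(hA f k').1, hm]
      exact fun _ a b => absurd b.symm (ne f k' a)
    · exact fun _ _ _ => rfl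
  · rcases mem_insert.1 hw with rfl | hw
    · exact ⟨m, by omega, by rw [hm]; exact ⟨hl, rfl⟩⟩
    · obtain ⟨e, he, k⟩ := h.sur w hw
      exact ⟨e, by omega, by rwa [(hA e he).1]⟩

/-- A refresh without a lock. -/
theorem Rel.refresh (h : Rel G s r l D m A y) (hs : 0 < s) (hl : l ≠ 0) {e : ℕ}
    (hA : ∀ f < m, A' f = A f) (hy : ∀ f < m, f ≠ e → y' f = y f)
    (hn : ¬ ((A e).lam ≠ 0 ∧ (A e).lo < 0 ∧ 2 * (r : ℤ) ≤ y' e)) : Rel G s r l D m A' y' := by
  refine ⟨h.sup0, h.vlt, h.slv, h.scs, fun X => ?_, h.cnt, fun f hf => ?_, fun f hf => ?_,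
    fun f hf g hg => ?_, fun w hw => ?_⟩
  · rw [capIn_congr (A := A) (X := lft X) fun f hf => by simp [hA f hf]]
    exact h.cap X
  · rw [hA f hf]
    exact h.ends f hf
  · rw [hA f hf]
    by_cases k : f = e
    · subst k
      refine (h.kind f hf).imp_right fun ⟨a, b, c, w, hw, d, k⟩ =>
        ⟨a, b, c, w, hw, d, k.imp_left fun k => ⟨k.1, k.2.1, ?_⟩⟩
      by_contra k'
      exact hn ⟨by omega, by omega, by omega⟩
    · rw [hy f hf k]
      exact h.kind f hf
  · rw [hA f hf, hA g hg]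
    exact h.inj f hf g hg
  · obtain ⟨f, hf, k⟩ := h.sur w hw
    exact ⟨f, hf, by rwa [hA f hf]⟩

/-- What is known about an arc that is locked. -/
theorem Rel.slot_of (h : Rel G s r l D m A y) {e : ℕ} (he : e < m) (h1 : (A e).lam ≠ 0)
    (h2 : (A e).lo < 0) : (A e).lo = -s ∧ (A e).up = 4 * r ∧ (A e).tl ≠ 0 ∧
      (A e).tl - 1 ∈ G.slot ∧ (A e).tl - 1 ∉ G.scn := by
  rcases h.kind e he with a | ⟨-, -, c, w, hw, d, k | k⟩
  · exact absurd a.1 h1
  · rw [d]
    exact ⟨k.1, c, by omega, hw, k.2.1⟩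
  · omega

/-- A refresh with a lock. -/
theorem Rel.lock (h : Rel G s r l D m A y) (hl : l ≠ 0) {e : ℕ} (he : e < m) (h1 : (A e).lam ≠ 0)
    (h2 : (A e).lo < 0) (hA : ∀ f < m, f ≠ e → A' f = A f ∧ y' f = y f)
    (hm : A' e = {A e with lo := r}) : Rel (G.scan ((A e).tl - 1)) s r l D m A' y' := by
  have k0 := h.slot_of he h1 h2
  have hs : ∀ f < m, (A' f).tl = (A f).tl ∧ (A' f).hd = (A f).hd ∧ (A' f).up = (A f).up ∧
      (A' f).lam = (A f).lam := fun f hf => by
    by_cases k : f = e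
    · simp [k, hm]
    · simp [(hA f hf k).1]
  refine ⟨h.sup0, h.vlt, h.slv, insert_subset k0.2.2.2.1 h.scs, fun X => ?_, h.cnt,
    fun f hf => ?_, fun f hf => ?_, fun f hf g hg => ?_, fun w hw => ?_⟩
  · rw [capIn_congr (A := A) (X := lft X) fun f hf => by simp [hs f hf]]
    exact h.cap X
  · rw [(hs f hf).1, (hs f hf).2.1]
    exact h.ends f hf
  · by_cases k : f = e
    · subst k
      rcases h.kind f hf with a | ⟨a, b, c, w, hw, d, -⟩
      · exact absurd a.1 h1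
      · rw [hm]
        exact Or.inr ⟨a, b, c, w, hw, d, Or.inr ⟨rfl, by simp [OG.scan, d]⟩⟩
    · rw [(hA f hf k).1, (hA f hf k).2]
      refine (h.kind f hf).imp_right fun ⟨a, b, c, w, hw, d, k'⟩ => ⟨a, b, c, w, hw, d,
        k'.imp (fun k' => ⟨k'.1, fun k'' => ?_, k'.2.2⟩) fun k' => ⟨k'.1, mem_insert_of_mem k'.2⟩⟩
      rcases mem_insert.1 k'' with k'' | k''
      · exact k (h.inj f hf e he (by omega) h1 (by omega))
      · exact k'.2.1 k''
  · rw [(hs f hf).1, (hs g hg).1, (hs f hf).2.2.2, (hs g hg).2.2.2]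
    exact h.inj f hf g hg
  · obtain ⟨f, hf, k⟩ := h.sur w hw
    exact ⟨f, hf, by rwa [(hs f hf).1, (hs f hf).2.2.2]⟩

theorem Rel.fuel {ρ : ℕ} (h : Rel G s (ρ * D) l D m A y) (hx : Circ m A x)
    (hin : ∀ e < m, (A e).In P (x e)) (hρ : 1 ≤ ρ) (hD : 0 < D) (hs : 4 * s * m ≤ D) :
    G.Fuel 2 ρ := by
  classical
  intro X
  have h1 := P305I.fuel hx hin (δ := s) (h := ρ * D) (X := lft X) (fun e he => by
      rcases h.kind e he with a | ⟨-, -, -, w, -, -, k | k⟩ <;> omega)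
    ((range m).filter fun e => ((A e).lam ≠ 0 ∧ 0 < (A e).lo) ∧ lft X (A e).tl) fun e he => by
      obtain ⟨he, k, k''⟩ := mem_filter.1 he
      have he := mem_range.1 he
      rcases h.kind e he with a | ⟨-, b, -, w, -, -, k' | k'⟩
      · omega
      · omega
      · exact ⟨he, k'', b ▸ lft_zero X, by omega⟩
  have h2 : (G.scn ∩ X).card ≤ ((range m).filter fun e =>
      ((A e).lam ≠ 0 ∧ 0 < (A e).lo) ∧ lft X (A e).tl).card := by
    refine le_trans (card_le_card fun v hv => ?_) (card_image_le (f := fun e => (A e).tl - 1))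
    obtain ⟨k1, k2⟩ := mem_inter.1 hv
    obtain ⟨e, he, a, b⟩ := h.sur v (h.scs k1)
    refine mem_image.2 ⟨e, mem_filter.2 ⟨mem_range.2 he, ⟨a, ?_⟩, by simpa [b] using k2⟩, by omega⟩
    have := Nat.mul_pos hρ hD
    rcases h.kind e he with a' | ⟨-, -, -, w, -, d, k' | k'⟩
    · exact absurd a'.1 a
    · exact absurd ((by omega : v = w) ▸ k1) k'.2.1
    · omega
  have h3 := (h.cap X).2
  have h4 : ρ * D * (G.scn ∩ X).card ≤ D * G.fuel X + 2 * (s * m) := by
    have := mul_le_mul_of_nonneg_left ((Nat.cast_le (α := ℤ)).2 h2) (Int.natCast_nonneg (ρ * D))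
    have : ((ρ * D * (G.scn ∩ X).card : ℕ) : ℤ) ≤ (D * G.fuel X + 2 * (s * m) : ℕ) := by
      push_cast at *
      linarith
    exact_mod_cast this
  rcases Nat.eq_zero_or_pos (G.scn ∩ X).card with k | k
  · simp [k]
  · have h5 : D * 1 ≤ D * (ρ * (G.scn ∩ X).card) := Nat.mul_le_mul_left _ (Nat.mul_pos hρ k)
    refine Nat.le_of_mul_le_mul_left ?_ hD
    nlinarith

theorem Rel.stall {ρ T : ℕ} (h : Rel G P.s (ρ * D) l D m A y) (hP : P.OK) (hx : Circ m A x)
    (hin : ∀ e < m, (A e).In P (x e)) (hy : ∀ e < m, (A e).Near P (x e) (y e))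
    (hc : Central P m A y) (hD : 0 < D) (hl : l ≠ 0) (hT : 0 < T) (hr : P.s ≤ ρ * D)
    (h1 : 10 * P.Lam ≤ ρ * D * T) (h2 : P.s * T ≤ P.Lam)
    (h3 : ρ * D * T + 3 * P.Lam ≤ ρ * D * l) : G.Stall 5 ρ := by
  classical
  have hs := hP.s_pos
  obtain ⟨X, k1, k2, k3⟩ := P305I.stall hP hx hin hy hc (o := 0) hT hr h1 h2
    (fun e => (A e).lam ≠ 0) (fun e => (A e).lam ≠ 0 ∧ (A e).lo < 0) (Z := 4 * (ρ * D))
    (fun e he k => by rcases h.kind e he with a | ⟨-, b, c, -⟩ <;> omega)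
    (fun e he k => by rcases h.kind e he with a | ⟨b, -⟩ <;> omega)
    (fun e he k => by
      rcases h.kind e he with a | ⟨a, -, b, w, -, -, k' | k'⟩
      · omega
      · exact ⟨k.1, by omega, a ▸ h3⟩
      · omega)
  have key : ∀ w, w = 0 ∨ lft G.V w → (lft (G.V.filter fun v => X (v + 1)) w ↔ X w) := by
    rintro w (rfl | k)
    · simp [k1]
    · obtain ⟨v, rfl⟩ := Nat.exists_eq_succ_of_ne_zero k.1
      simp [(lft_succ _ _).1 k]
  refine ⟨G.V.filter fun v => X (v + 1), fun v hv => ?_, ?_⟩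
  · obtain ⟨a, b⟩ := mem_sdiff.1 hv
    obtain ⟨e, he, c, d⟩ := h.sur v a
    refine mem_filter.2 ⟨h.slv a, d ▸ k2 e he ⟨c, ?_⟩⟩
    rcases h.kind e he with a' | ⟨-, -, -, w, -, d', k' | k'⟩
    · exact absurd a'.1 c
    · omega
    · exact absurd ((by omega : w = v) ▸ k'.2) b
  · have a1 := (h.cap (G.V.filter fun v => X (v + 1))).1
    rw [capIn_congr (A := A) (X := X) fun e he =>
      ⟨rfl, key _ (h.ends e he).1, key _ (h.ends e he).2⟩] at a1
    have a3 : D * G.fuel (G.V.filter fun v => X (v + 1)) ≤ D * (5 * ρ * m) := by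
      have : ((D * G.fuel (G.V.filter fun v => X (v + 1)) : ℕ) : ℤ) ≤ (D * (5 * ρ * m) : ℕ) := by
        have k4 := a1.trans k3
        push_cast at *
        linarith
      exact_mod_cast this
    exact (Nat.le_of_mul_le_mul_left a3 hD).trans (Nat.mul_le_mul_left _ h.cnt)

end Vale.Agent.P305I
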