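import Vale.Agent.P305I.Defs

/-!
# Primal interior point method, part 1: steps, insertions, locks and bounds for the lengths
-/

namespace Vale.Agent.P305I

open Vale.Agent.P305E Vale.Agent.P305F Finset

variable {P : Ip}

theorem Ip.OK.lam_pos (h : P.OK) : 0 < P.Lam := by
  have := h.UE
  have := Nat.mul_pos (Nat.mul_pos two_pos h.U_pos) (show 0 < P.E by have := h.E_ge; omega)
  omega

theorem Ip.OK.U_le (h : P.OK) : 20 * P.U ≤ P.Lam := by
  have := h.UE
  have := Nat.mul_le_mul_left (2 * P.U) h.E_ge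
  omega

theorem cast_toNat {y : ℤ} (h : 0 < y) : ((y.toNat : ℕ) : ℝ) = y := by
  rw [← Int.cast_natCast, Int.toNat_of_nonneg h.le]

theorem two_le_gi (y : ℤ) : 2 ≤ gi P y := Nat.le_add_left _ _

theorem gi_ge {y : ℤ} (h : 0 < y) : (P.Lam : ℝ) * uu P.s y ≤ gi P y := by
  have := gam_ge (D := 1) (Lam := P.Lam) (Dd := P.s) (σ := y.toNat) (δ := P.s) one_pos (by simp)
    (by omega)
  rwa [cast_toNat h, Nat.cast_one, div_one] at this

theorem gi_le {y : ℤ} (h : 0 < y) : (gi P y : ℝ) ≤ P.Lam * uu P.s y + 2 := by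
  have := gam_le (D := 1) (Lam := P.Lam) (Dd := P.s) (σ := y.toNat) (δ := P.s) one_pos (by simp)
    (by omega)
  rwa [cast_toNat h, Nat.cast_one, div_one] at this

theorem lam_le_gi {y : ℤ} (h : 0 < y) : (P.Lam : ℝ) ≤ gi P y * y := by
  have h1 := gi_ge (P := P) h
  have h2 : (0 : ℝ) < y := by exact_mod_cast h
  have h3 : uu P.s y * y = 1 + P.s / y := by
    unfold uu
    field_simp
  have h4 : (0 : ℝ) ≤ P.s / y := by positivity
  have h5 : (0 : ℝ) ≤ P.Lam := Nat.cast_nonneg _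
  nlinarith

/-- For slacks above `s` the slope is comparable to `Lam / y`. -/
theorem gi_mul_le {y : ℤ} (h : 0 < y) (hs : (P.s : ℤ) ≤ y) :
    (gi P y : ℝ) * y ≤ 2 * P.Lam + 2 * y := by
  have h1 := gi_le (P := P) h
  have h2 : (0 : ℝ) < y := by exact_mod_cast h
  have h3 : uu P.s y * y = 1 + P.s / y := by
    unfold uu
    field_simp
  have h4 : (P.s : ℝ) / y ≤ 1 := (div_le_one h2).2 (by exact_mod_cast hs)
  have h5 : (0 : ℝ) ≤ P.Lam := Nat.cast_nonneg _
  nlinarith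

theorem psi_ge (_h : P.OK) {y : ℝ} (h0 : 0 < y) (hU : y ≤ P.U) : P.s / y ≤ psi P y :=
  le_add_of_nonneg_left (Real.log_nonneg ((one_le_div h0).2 hU))

theorem psi_nonneg (h : P.OK) {y : ℝ} (h0 : 0 < y) (hU : y ≤ P.U) : 0 ≤ psi P y :=
  le_trans (by positivity) (psi_ge h h0 hU)

theorem psi_le (h : P.OK) {k : ℕ} (hk : P.U ≤ 2 ^ k) {y : ℝ} (hs : (P.s : ℝ) ≤ y) :
    psi P y ≤ k + 1 := by
  have h1 : (1 : ℝ) ≤ P.s := by exact_mod_cast h.s_pos
  have h2 : (0 : ℝ) < P.U := by exact_mod_cast h.U_pos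
  have h3 : (P.s : ℝ) / y ≤ 1 := (div_le_one (by linarith)).2 hs
  have h4 : (P.U : ℝ) / y ≤ 2 ^ k :=
    (div_le_self h2.le (by linarith)).trans (by exact_mod_cast hk)
  have h5 := Real.log_le_log (div_pos h2 (by linarith)) h4
  have h6 : Real.log 2 ≤ 1 := by linarith [Real.log_le_sub_one_of_pos (show (0 : ℝ) < 2 by norm_num)]
  rw [Real.log_pow] at h5
  unfold psi
  nlinarith [Nat.cast_nonneg (α := ℝ) k]

/-- One side of the barrier. -/
theorem side_step (h : P.OK) {y z d : ℤ} (hy : 0 < y) (hz : 0 < z) (hU : z ≤ P.U)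
    (h1 : (P.E : ℝ) * (gi P z * |(y : ℝ) - z|) ≤ P.Lam) (h2 : (P.E : ℝ) * (gi P z * |(d : ℝ)|) ≤ P.Lam) :
    0 < y - d ∧ psi P ((y : ℝ) - d) ≤ psi P y + (gi P z : ℝ) / P.Lam * d +
      14 / P.E * ((gi P z : ℝ) / P.Lam * |(d : ℝ)|) := by
  have hL : (0 : ℝ) < P.Lam := by exact_mod_cast h.lam_pos
  have hE : (10 : ℝ) ≤ P.E := by exact_mod_cast h.E_ge
  have hE0 : (0 : ℝ) < P.E := by linarith
  have hε : 1 / (P.E : ℝ) ≤ 1 / 10 := one_div_le_one_div_of_le (by norm_num) hE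
  have hUE : 2 * (P.U : ℝ) * P.E ≤ P.Lam := by exact_mod_cast h.UE
  have a := gam_drift (D := 1) (Lam := P.Lam) (Dd := P.s) (σ := z.toNat) (δ := P.s)
    (ε := 1 / P.E) (S := P.U) (s := y) one_pos h.lam_pos (by simp) (by omega)
    (by rw [cast_toNat hz, Nat.cast_one, div_one]; exact_mod_cast hU) hε
    (by rw [one_div_mul_eq_div, le_div_iff₀ hE0]; exact hUE)
    (by
      rw [cast_toNat hz, Nat.cast_one, div_one, one_div_mul_eq_div, le_div_iff₀ hE0, mul_comm]
      exact h1)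
  have b := arc_step (δ := P.s) (S := P.U) (ε := 6 * (1 / P.E)) (η := 1 / P.E) (s := y)
    (ut := gi P z / P.Lam) (x := d) (by exact_mod_cast hy) a (Nat.cast_nonneg _)
    (by exact_mod_cast h.U_pos) (by linarith) (by positivity)
    (by
      rw [div_mul_eq_mul_div, div_le_div_iff₀ hL hE0, one_mul, mul_comm]
      exact h2) (by linarith)
  refine ⟨by exact_mod_cast b.1, ?_⟩
  have e : 6 * (1 / (P.E : ℝ)) + 8 * (1 / P.E) = 14 / P.E := by ring
  rw [e] at b
  exact b.2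

namespace Ar

variable {a : Ar} {x y d : ℤ}

theorem four_le_len : 4 ≤ a.len P x := by
  have := two_le_gi (P := P) (x - a.lo)
  have := two_le_gi (P := P) (a.up - x)
  unfold len
  omega

theorem natAbs_g_le : (a.g P x).natAbs ≤ a.len P x + a.lam := by
  unfold g len
  omega

theorem In.near (h : a.In P x) : a.Near P x x := ⟨h, by simp⟩

theorem Near.real (h : a.Near P x y) : (P.E : ℝ) * (a.len P y * |(x : ℝ) - y|) ≤ P.Lam := by
  have := (Nat.cast_le (α := ℝ)).2 h.2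
  push_cast [Nat.cast_natAbs] at this
  exact this

theorem phi_nonneg (h : P.OK) (hx : a.In P x) : 0 ≤ a.phi P x := by
  obtain ⟨h1, h2, h3⟩ := hx
  have k1 : (a.lo : ℝ) < x := by exact_mod_cast h1
  have k2 : (x : ℝ) < a.up := by exact_mod_cast h2
  have k3 : (a.up : ℝ) - a.lo ≤ P.U := by exact_mod_cast h3
  have := psi_nonneg h (y := (x : ℝ) - a.lo) (by linarith) (by linarith)
  have := psi_nonneg h (y := (a.up : ℝ) - x) (by linarith) (by linarith)
  have : 0 ≤ (a.lam : ℝ) / P.Lam * ((a.up : ℝ) - x) := mul_nonneg (by positivity) (by linarith)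
  unfold phi
  linarith

/-- The change of the potential of one arc. -/
theorem step (h : P.OK) (hx : a.In P x) (hy : a.Near P x y)
    (hd : P.E * (a.len P y * d.natAbs) ≤ P.Lam) :
    a.In P (x + d) ∧ a.phi P (x + d) ≤ a.phi P x + (a.g P y * d : ℤ) / (P.Lam : ℝ) +
      14 / P.E * ((a.len P y * d.natAbs : ℕ) / (P.Lam : ℝ)) := by
  have hn := hy.real
  have hd' : (P.E : ℝ) * (a.len P y * |(d : ℝ)|) ≤ P.Lam := by
    have := (Nat.cast_le (α := ℝ)).2 hd
    push_cast [Nat.cast_natAbs] at this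
    exact this
  obtain ⟨h1, h2, h3⟩ := hx
  obtain ⟨⟨k1, k2, -⟩, -⟩ := hy
  have hE : (0 : ℝ) ≤ P.E := Nat.cast_nonneg _
  have g1 : (0 : ℝ) ≤ gi P (y - a.lo) := Nat.cast_nonneg _
  have g2 : (0 : ℝ) ≤ gi P (a.up - y) := Nat.cast_nonneg _
  have p1 := abs_nonneg ((x : ℝ) - y)
  have p2 := abs_nonneg (d : ℝ)
  simp only [len, Nat.cast_add] at hn hd'
  have s1 := side_step h (y := x - a.lo) (z := y - a.lo) (d := -d) (by omega) (by omega) (by omega)
    (by
      push_cast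
      rw [sub_sub_sub_cancel_right]
      nlinarith [mul_nonneg hE (mul_nonneg g2 p1)])
    (by
      push_cast
      rw [abs_neg]
      nlinarith [mul_nonneg hE (mul_nonneg g2 p2)])
  have s2 := side_step h (y := a.up - x) (z := a.up - y) (d := d) (by omega) (by omega) (by omega)
    (by
      push_cast
      rw [sub_sub_sub_cancel_left, abs_sub_comm]
      nlinarith [mul_nonneg hE (mul_nonneg g1 p1)])
    (by nlinarith [mul_nonneg hE (mul_nonneg g1 p2)])
  refine ⟨⟨by omega, by omega, h3⟩, ?_⟩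
  have t1 := s1.2
  have t2 := s2.2
  push_cast [abs_neg] at t1 t2
  simp only [phi, g, len]
  push_cast [Nat.cast_natAbs]
  rw [show (x : ℝ) + d - a.lo = x - a.lo - -d by ring, show (a.up : ℝ) - (x + d) = a.up - x - d by ring]
  refine le_trans (add_le_add (add_le_add le_rfl t1) t2) (le_of_eq ?_)
  ring

/-- The potential of a new arc. -/
theorem phi_le (h : P.OK) {k c : ℕ} (hk : P.U ≤ 2 ^ k) (h1 : (P.s : ℤ) ≤ x - a.lo)
    (h2 : (P.s : ℤ) ≤ a.up - x) (h3 : a.lam * (a.up - x) ≤ c * P.Lam) :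
    a.phi P x ≤ c + 2 * k + 2 := by
  have hL : (0 : ℝ) < P.Lam := by exact_mod_cast h.lam_pos
  have a1 := psi_le h hk (y := (x : ℝ) - a.lo) (by exact_mod_cast h1)
  have a2 := psi_le h hk (y := (a.up : ℝ) - x) (by exact_mod_cast h2)
  have a3 : (a.lam : ℝ) / P.Lam * ((a.up : ℝ) - x) ≤ c := by
    rw [div_mul_eq_mul_div, div_le_iff₀ hL]
    exact_mod_cast h3
  unfold phi
  linarith

/-- The change of the potential when the lower bound is raised. -/
theorem phi_lock (h : P.OK) {l : ℤ} {c : ℕ} (h0 : a.lo < x) (h1 : (P.s : ℤ) ≤ x - l)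
    (h2 : x - a.lo ≤ c * (x - l)) : ({a with lo := l} : Ar).phi P x ≤ a.phi P x + c := by
  have k0 : (0 : ℝ) < (x : ℝ) - a.lo := by exact_mod_cast sub_pos.2 h0
  have k1 : (P.s : ℝ) ≤ (x : ℝ) - l := by exact_mod_cast h1
  have k2 : (x : ℝ) - a.lo ≤ c * ((x : ℝ) - l) := by exact_mod_cast h2
  have k3 : (1 : ℝ) ≤ P.s := by exact_mod_cast h.s_pos
  have k4 : (0 : ℝ) < P.U := by exact_mod_cast h.U_pos
  have k5 : (0 : ℝ) < (x : ℝ) - l := by linarith
  have e : (P.U : ℝ) / ((x : ℝ) - l) = P.U / ((x : ℝ) - a.lo) * (((x : ℝ) - a.lo) / (x - l)) := by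
    field_simp
  have a1 := Real.log_le_sub_one_of_pos (div_pos k0 k5)
  have a2 : ((x : ℝ) - a.lo) / (x - l) ≤ c := (div_le_iff₀ k5).2 k2
  have a3 : (P.s : ℝ) / (x - l) ≤ 1 := (div_le_one k5).2 k1
  have a4 : (0 : ℝ) ≤ P.s / ((x : ℝ) - a.lo) := by positivity
  simp only [phi, psi]
  rw [e, Real.log_mul (by positivity) (by positivity)]
  linarith

/-- A bound for the potential bounds the length. -/
theorem len_le (h : P.OK) {Q W : ℕ} (hQ : 1 ≤ Q) (hx : a.In P x) (hp : a.phi P x ≤ Q)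
    (hW : 4 * P.Lam * Q ^ 2 ≤ W * P.s) : a.len P x ≤ W + 4 := by
  obtain ⟨h1, h2, h3⟩ := hx
  have k1 : (a.lo : ℝ) < x := by exact_mod_cast h1
  have k2 : (x : ℝ) < a.up := by exact_mod_cast h2
  have k3 : (a.up : ℝ) - a.lo ≤ P.U := by exact_mod_cast h3
  have hs : (0 : ℝ) < P.s := by exact_mod_cast h.s_pos
  have b1 := psi_ge h (y := (x : ℝ) - a.lo) (by linarith) (by linarith)
  have b2 := psi_ge h (y := (a.up : ℝ) - x) (by linarith) (by linarith)
  have b3 : 0 ≤ (a.lam : ℝ) / P.Lam * ((a.up : ℝ) - x) := mul_nonneg (by positivity) (by linarith)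
  have b4 : (0 : ℝ) ≤ P.s / ((x : ℝ) - a.lo) := div_nonneg hs.le (by linarith)
  have b5 : (0 : ℝ) ≤ P.s / ((a.up : ℝ) - x) := div_nonneg hs.le (by linarith)
  have key : ∀ y : ℤ, 0 < y → (P.s : ℝ) / y ≤ Q → 2 * (gi P y : ℝ) ≤ W + 4 := by
    intro y hy hq
    have := gam_le_of (D := 1) (Lam := P.Lam) (Dd := P.s) (σ := y.toNat) (δ := P.s) (X := Q)
      one_pos (by simp) (by omega) hs (by exact_mod_cast hQ) (by
        rw [cast_toNat hy, Nat.cast_one, div_one]
        exact (div_le_iff₀ (by exact_mod_cast hy)).1 hq)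
    have h5 : 2 * (2 * (P.Lam : ℝ) * Q ^ 2 / P.s) ≤ W := by
      rw [← mul_div_assoc, div_le_iff₀ hs]
      have : ((4 * P.Lam * Q ^ 2 : ℕ) : ℝ) ≤ (W * P.s : ℕ) := by exact_mod_cast hW
      push_cast at this
      linarith
    unfold gi
    linarith
  unfold phi at hp
  have c1 := key (x - a.lo) (by omega) (by push_cast; linarith)
  have c2 := key (a.up - x) (by omega) (by push_cast; linarith)
  have : ((a.len P x : ℕ) : ℝ) ≤ (W + 4 : ℕ) := by
    unfold len
    push_cast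
    linarith
  exact_mod_cast this

end Ar

variable {m : ℕ} {A : ℕ → Ar} {x y d : ℕ → ℤ}

theorem Psi_nonneg (h : P.OK) (hx : ∀ e < m, (A e).In P (x e)) : 0 ≤ Psi P m A x :=
  sum_nonneg fun e he => Ar.phi_nonneg h (hx e (mem_range.1 he))

theorem phi_le_Psi (h : P.OK) (hx : ∀ e < m, (A e).In P (x e)) {e : ℕ} (he : e < m) :
    (A e).phi P (x e) ≤ Psi P m A x :=
  single_le_sum (f := fun e => (A e).phi P (x e))
    (fun e he => Ar.phi_nonneg h (hx e (mem_range.1 he))) (mem_range.2 he)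

theorem Psi_congr {A' : ℕ → Ar} {x' : ℕ → ℤ} (h : ∀ e < m, A' e = A e ∧ x' e = x e) :
    Psi P m A' x' = Psi P m A x :=
  sum_congr rfl fun e he => by rw [(h e (mem_range.1 he)).1, (h e (mem_range.1 he)).2]

theorem Psi_succ : Psi P (m + 1) A x = Psi P m A x + (A m).phi P (x m) := sum_range_succ _ _

/-- The change of one arc. -/
theorem Psi_update {A' : ℕ → Ar} {e : ℕ} (he : e < m) (h : ∀ f < m, f ≠ e → A' f = A f) :
    Psi P m A' x = Psi P m A x + ((A' e).phi P (x e) - (A e).phi P (x e)) := by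
  unfold Psi
  rw [← add_sum_erase _ _ (mem_range.2 he), ← add_sum_erase _ _ (mem_range.2 he),
    sum_congr rfl fun f hf => by
      rw [h f (mem_range.1 (mem_of_mem_erase hf)) (ne_of_mem_erase hf)]]
  ring

/-- **Step.** A direction of small length and negative gradient decreases the potential. -/
theorem step (h : P.OK) (hx : ∀ e < m, (A e).In P (x e)) (hy : ∀ e < m, (A e).Near P (x e) (y e))
    {H G : ℕ} (hH : ∑ e ∈ range m, (A e).len P (y e) * (d e).natAbs ≤ H) (hE : P.E * H ≤ P.Lam)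
    (hG : ∑ e ∈ range m, (A e).g P (y e) * d e ≤ -G) (hHG : 28 * H ≤ P.E * G) :
    (∀ e < m, (A e).In P (x e + d e)) ∧
      Psi P m A (fun e => x e + d e) ≤ Psi P m A x - G / (2 * P.Lam) := by
  have key : ∀ e < m, _ := fun e he => Ar.step h (hx e he) (hy e he) (d := d e)
    ((Nat.mul_le_mul_left _ ((single_le_sum (f := fun e => (A e).len P (y e) * (d e).natAbs)
      (fun _ _ => Nat.zero_le _) (mem_range.2 he)).trans hH)).trans hE)
  refine ⟨fun e he => (key e he).1, ?_⟩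
  have hL : (0 : ℝ) < P.Lam := by exact_mod_cast h.lam_pos
  have hE0 : (0 : ℝ) < P.E := by exact_mod_cast (show 0 < P.E by have := h.E_ge; omega)
  have h1 := sum_le_sum fun e (he : e ∈ range m) => (key e (mem_range.1 he)).2
  rw [sum_add_distrib, sum_add_distrib, ← mul_sum, ← sum_div, ← sum_div, ← Int.cast_sum,
    ← Nat.cast_sum] at h1
  have h2 : ((∑ e ∈ range m, (A e).g P (y e) * d e : ℤ) : ℝ) ≤ -G := by exact_mod_cast hG
  have h3 : ((∑ e ∈ range m, (A e).len P (y e) * (d e).natAbs : ℕ) : ℝ) ≤ H := by exact_mod_cast hH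
  have h4 : 28 * (H : ℝ) ≤ P.E * G := by exact_mod_cast hHG
  have h5 := div_le_div_of_nonneg_right h2 hL.le
  have h6 := mul_le_mul_of_nonneg_left (div_le_div_of_nonneg_right h3 hL.le)
    (show 0 ≤ 14 / (P.E : ℝ) by positivity)
  have h7 : 14 / (P.E : ℝ) * (H / P.Lam) ≤ G / (2 * P.Lam) := by
    rw [div_mul_div_comm, div_le_div_iff₀ (by positivity) (by positivity)]
    nlinarith
  have h8 : -(G : ℝ) / P.Lam = -2 * (G / (2 * P.Lam)) := by field_simp
  unfold Psi
  linarith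

theorem Circ.add (hx : Circ m A x) (hd : Circ m A d) : Circ m A fun e => x e + d e := fun π => by
  simp only [add_mul, sum_add_distrib, hx π, hd π, add_zero]

theorem Circ.congr {A' : ℕ → Ar} {x' : ℕ → ℤ} (hx : Circ m A x)
    (h : ∀ e < m, (A' e).tl = (A e).tl ∧ (A' e).hd = (A e).hd ∧ x' e = x e) : Circ m A' x' :=
  fun π => (sum_congr rfl fun e he => by
    obtain ⟨h1, h2, h3⟩ := h e (mem_range.1 he)
    rw [h1, h2, h3]).trans (hx π)

theorem Circ.succ (hx : Circ m A x) (h0 : x m = 0) : Circ (m + 1) A x := fun π => by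
  rw [sum_range_succ, hx π, h0]
  simp

theorem Circ.zero : Circ 0 A x := fun _ => rfl

end Vale.Agent.P305I
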